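import Crest.Agent.R305.Defs

/-!
# Row 305: the greedy facts
-/

set_option autoImplicit false

namespace Crest.Agent.R305

open Finset
open scoped Classical

variable {n : ℕ}

theorem acc_nil (ρ : Rk n) (El Ψ : ℕ → Finset (Fin n)) : acc ρ El Ψ [] = ∅ := rfl

theorem acc_concat (ρ : Rk n) (El Ψ : ℕ → Finset (Fin n)) (l : List (Fin n)) (e : Fin n) :
    acc ρ El Ψ (l ++ [e]) = step ρ El Ψ (acc ρ El Ψ l) e := by
  simp only [acc, List.foldl_append, List.foldl_cons, List.foldl_nil]

theorem subset_step (ρ : Rk n) (El Ψ : ℕ → Finset (Fin n)) (A : Finset (Fin n)) (e : Fin n) :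
    A ⊆ step ρ El Ψ A e := by
  unfold step
  split_ifs
  · exact subset_insert _ _
  · exact Subset.rfl

theorem step_subset (ρ : Rk n) (El Ψ : ℕ → Finset (Fin n)) (A : Finset (Fin n)) (e : Fin n) :
    step ρ El Ψ A e ⊆ insert e A := by
  unfold step
  split_ifs
  · exact Subset.rfl
  · exact subset_insert _ _

theorem accStmt : AccStmt := by
  intro n ρ El Ψ l hd
  induction l using List.reverseRecOn with
  | nil =>
    refine ⟨fun e he => absurd he (notMem_empty e), fun k => ?_, fun k e he => absurd he (by simp)⟩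
    rw [acc_nil, empty_inter, ρ.rel_empty_left, card_empty]
  | append_singleton l e ih =>
    obtain ⟨h1, h2, h3⟩ := ih
    rw [acc_concat]
    set A := acc ρ El Ψ l
    have hold : ∀ k, ∀ x ∈ l, x ∈ El k → x ∈ ρ.cl (step ρ El Ψ A e ∩ El k ∪ Ψ k) :=
      fun k x hx hk => ρ.cl_mono (union_subset_union_left
        (inter_subset_inter_right (subset_step ρ El Ψ A e))) (h3 k x hx hk)
    by_cases h : ∃ k, e ∈ El k ∧ e ∉ ρ.cl (A ∩ El k ∪ Ψ k)
    · have hs : step ρ El Ψ A e = insert e A := if_pos h
      obtain ⟨k₀, hk₀, hcl⟩ := h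
      refine ⟨fun x hx => ?_, fun k => ?_, fun k x hx hk => ?_⟩
      · rw [hs, mem_insert] at hx
        rcases hx with rfl | hx
        exacts [⟨k₀, hk₀⟩, h1 x hx]
      · rw [hs]
        by_cases hk : k = k₀
        · subst hk
          have : e ∉ A ∩ El k := fun hm => hcl (ρ.subset_cl _ (mem_union_left _ hm))
          rw [insert_inter_of_mem hk₀, ρ.rel_insert_of_not_mem hcl, card_insert_of_notMem this,
            h2 k]
        · rw [insert_inter_of_notMem fun hm => disjoint_left.1 (hd k k₀ hk) hm hk₀, h2 k]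
      · rcases List.mem_append.1 hx with hx | hx
        · exact hold k x hx hk
        · rw [List.mem_singleton] at hx
          subst hx
          rw [hs]
          exact ρ.subset_cl _ (mem_union_left _ (mem_inter.2 ⟨mem_insert_self _ _, hk⟩))
    · have hs : step ρ El Ψ A e = A := if_neg h
      refine ⟨by rw [hs]; exact h1, by rw [hs]; exact h2, fun k x hx hk => ?_⟩
      rcases List.mem_append.1 hx with hx | hx
      · exact hold k x hx hk
      · rw [List.mem_singleton] at hx
        subst hx
        rw [hs]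
        by_contra hc
        exact h ⟨k, hk, hc⟩

end Crest.Agent.R305
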