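import Mathlib

/-!
# Row 305: rank functions on `Fin n`, closure, relative rank, bases
-/

set_option autoImplicit false

namespace Crest.Agent.R305

open Finset

/-- A matroid rank function on the finsets of `Fin n`. -/
structure Rk (n : ℕ) where
  r : Finset (Fin n) → ℕ
  empty : r ∅ = 0
  mono : ∀ {A B : Finset (Fin n)}, A ⊆ B → r A ≤ r B
  submod : ∀ A B : Finset (Fin n), r (A ∪ B) + r (A ∩ B) ≤ r A + r B
  single : ∀ a : Fin n, r {a} ≤ 1

namespace Rk

variable {n : ℕ} (ρ : Rk n)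

/-- Closure. -/
def cl (A : Finset (Fin n)) : Finset (Fin n) := univ.filter fun a => ρ.r (insert a A) = ρ.r A

/-- Relative rank `r(A | D) = r(A ∪ D) - r(D)`. -/
def rel (A D : Finset (Fin n)) : ℕ := ρ.r (A ∪ D) - ρ.r D

theorem mem_cl {A : Finset (Fin n)} {a : Fin n} : a ∈ ρ.cl A ↔ ρ.r (insert a A) = ρ.r A := by
  simp [cl]

theorem union_le (A B : Finset (Fin n)) : ρ.r (A ∪ B) ≤ ρ.r A + ρ.r B :=
  le_trans (Nat.le_add_right _ _) (ρ.submod A B)

theorem insert_le (a : Fin n) (A : Finset (Fin n)) : ρ.r (insert a A) ≤ ρ.r A + 1 := by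
  have h := ρ.union_le {a} A
  have := ρ.single a
  rw [← insert_eq] at h
  omega

theorem le_card (A : Finset (Fin n)) : ρ.r A ≤ A.card := by
  induction A using Finset.induction_on with
  | empty => simp [ρ.empty]
  | insert a A ha ih =>
    have := ρ.insert_le a A
    rw [card_insert_of_notMem ha]; omega

theorem not_mem_cl {A : Finset (Fin n)} {a : Fin n} :
    a ∉ ρ.cl A ↔ ρ.r (insert a A) = ρ.r A + 1 := by
  rw [mem_cl]
  have h1 := ρ.insert_le a A
  have h2 : ρ.r A ≤ ρ.r (insert a A) := ρ.mono (subset_insert _ _)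
  omega

/-- Diminishing returns. -/
theorem dimin {B C : Finset (Fin n)} (A : Finset (Fin n)) (h : B ⊆ C) :
    ρ.r (A ∪ C) + ρ.r B ≤ ρ.r (A ∪ B) + ρ.r C := by
  have h1 := ρ.submod (A ∪ B) C
  have h2 : A ∪ B ∪ C = A ∪ C := by rw [union_assoc, union_eq_right.2 h]
  have h3 : ρ.r B ≤ ρ.r ((A ∪ B) ∩ C) :=
    ρ.mono (subset_inter subset_union_right h)
  rw [h2] at h1
  omega

theorem subset_cl (A : Finset (Fin n)) : A ⊆ ρ.cl A := fun a ha => by
  rw [mem_cl, insert_eq_of_mem ha]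

theorem cl_mono {A B : Finset (Fin n)} (h : A ⊆ B) : ρ.cl A ⊆ ρ.cl B := fun a ha => by
  rw [mem_cl] at ha ⊢
  have h1 := ρ.dimin {a} h
  rw [← insert_eq, ← insert_eq] at h1
  have h2 : ρ.r B ≤ ρ.r (insert a B) := ρ.mono (subset_insert _ _)
  omega

theorem r_union_of_subset_cl {A B : Finset (Fin n)} (h : A ⊆ ρ.cl B) : ρ.r (A ∪ B) = ρ.r B := by
  induction A using Finset.induction_on with
  | empty => simp
  | insert a A _ ih =>
    have h1 := ih ((subset_insert _ _).trans h)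
    have h2 : a ∈ ρ.cl (A ∪ B) := ρ.cl_mono subset_union_right (h (mem_insert_self _ _))
    rw [mem_cl] at h2
    rw [insert_union, h2, h1]

theorem subset_cl_of_r_union {A B : Finset (Fin n)} (h : ρ.r (A ∪ B) ≤ ρ.r B) :
    A ⊆ ρ.cl B := fun a ha => by
  rw [mem_cl]
  have h1 : ρ.r (insert a B) ≤ ρ.r (A ∪ B) :=
    ρ.mono (insert_subset (mem_union_left _ ha) subset_union_right)
  have h2 : ρ.r B ≤ ρ.r (insert a B) := ρ.mono (subset_insert _ _)
  omega

theorem r_cl (A : Finset (Fin n)) : ρ.r (ρ.cl A) = ρ.r A := by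
  have h := ρ.r_union_of_subset_cl (Subset.refl (ρ.cl A))
  rwa [union_eq_left.2 (ρ.subset_cl A)] at h

theorem r_le_of_subset_cl {A B : Finset (Fin n)} (h : A ⊆ ρ.cl B) : ρ.r A ≤ ρ.r B := by
  rw [← ρ.r_cl B]; exact ρ.mono h

theorem cl_subset_cl {A B : Finset (Fin n)} (h : A ⊆ ρ.cl B) : ρ.cl A ⊆ ρ.cl B := by
  refine ρ.subset_cl_of_r_union ?_
  have h1 : ρ.cl A ⊆ ρ.cl (A ∪ B) := ρ.cl_mono subset_union_left
  have h2 : ρ.cl A ∪ B ⊆ ρ.cl (A ∪ B) :=
    union_subset h1 (subset_union_right.trans (ρ.subset_cl _))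
  have h3 := ρ.r_le_of_subset_cl h2
  rw [ρ.r_union_of_subset_cl h] at h3
  exact h3

theorem cl_cl (A : Finset (Fin n)) : ρ.cl (ρ.cl A) = ρ.cl A :=
  Subset.antisymm (ρ.cl_subset_cl (Subset.refl _)) (ρ.subset_cl _)

theorem subset_cl_trans {A B C : Finset (Fin n)} (h1 : A ⊆ ρ.cl B) (h2 : B ⊆ ρ.cl C) :
    A ⊆ ρ.cl C := h1.trans (ρ.cl_subset_cl h2)

theorem cl_univ : ρ.cl univ = univ := Subset.antisymm (subset_univ _) (ρ.subset_cl _)

theorem cl_eq_of_subset {A B : Finset (Fin n)} (h1 : A ⊆ ρ.cl B) (h2 : B ⊆ ρ.cl A) :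
    ρ.cl A = ρ.cl B := Subset.antisymm (ρ.cl_subset_cl h1) (ρ.cl_subset_cl h2)

theorem r_eq_of_cl_eq {A B : Finset (Fin n)} (h : ρ.cl A = ρ.cl B) : ρ.r A = ρ.r B := by
  rw [← ρ.r_cl A, h, ρ.r_cl]

theorem union_subset_cl {A B A' B' : Finset (Fin n)} (h1 : A ⊆ ρ.cl A') (h2 : B ⊆ ρ.cl B') :
    A ∪ B ⊆ ρ.cl (A' ∪ B') :=
  union_subset (h1.trans (ρ.cl_mono subset_union_left)) (h2.trans (ρ.cl_mono subset_union_right))

theorem rel_add (A D : Finset (Fin n)) : ρ.rel A D + ρ.r D = ρ.r (A ∪ D) := by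
  have : ρ.r D ≤ ρ.r (A ∪ D) := ρ.mono subset_union_right
  unfold rel; omega

theorem rel_empty_left (D : Finset (Fin n)) : ρ.rel ∅ D = 0 := by simp [rel]

theorem rel_empty_right (A : Finset (Fin n)) : ρ.rel A ∅ = ρ.r A := by simp [rel, ρ.empty]

theorem rel_le_r (A D : Finset (Fin n)) : ρ.rel A D ≤ ρ.r A := by
  have := ρ.union_le A D
  have := ρ.rel_add A D
  omega

theorem rel_le_card (A D : Finset (Fin n)) : ρ.rel A D ≤ A.card :=
  (ρ.rel_le_r A D).trans (ρ.le_card A)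

theorem rel_eq_zero {A D : Finset (Fin n)} : ρ.rel A D = 0 ↔ A ⊆ ρ.cl D := by
  have h := ρ.rel_add A D
  constructor
  · intro h0
    exact ρ.subset_cl_of_r_union (by omega)
  · intro h1
    have := ρ.r_union_of_subset_cl h1
    omega

/-- Monotone in the first argument (up to closure modulo `D`). -/
theorem rel_mono_left {A A' D : Finset (Fin n)} (h : A ⊆ ρ.cl (A' ∪ D)) :
    ρ.rel A D ≤ ρ.rel A' D := by
  have h1 := ρ.rel_add A D
  have h2 := ρ.rel_add A' D
  have h3 : ρ.r (A ∪ D) ≤ ρ.r (A' ∪ D) :=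
    ρ.r_le_of_subset_cl (union_subset h (subset_union_right.trans (ρ.subset_cl _)))
  omega

theorem rel_mono_left' {A A' : Finset (Fin n)} (D : Finset (Fin n)) (h : A ⊆ A') :
    ρ.rel A D ≤ ρ.rel A' D :=
  ρ.rel_mono_left (h.trans (subset_union_left.trans (ρ.subset_cl _)))

/-- Antitone in the second argument (up to closure). -/
theorem rel_anti_right (A : Finset (Fin n)) {D D' : Finset (Fin n)} (h : D ⊆ ρ.cl D') :
    ρ.rel A D' ≤ ρ.rel A D := by
  have h1 := ρ.rel_add A D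
  have h2 := ρ.rel_add A D'
  have h3 := ρ.dimin A (show D ⊆ D ∪ D' from subset_union_left)
  have h4 := ρ.r_union_of_subset_cl h
  have h5 : ρ.r (A ∪ D') ≤ ρ.r (A ∪ (D ∪ D')) :=
    ρ.mono (union_subset_union (Subset.refl _) subset_union_right)
  omega

theorem rel_anti_right' (A : Finset (Fin n)) {D D' : Finset (Fin n)} (h : D ⊆ D') :
    ρ.rel A D' ≤ ρ.rel A D := ρ.rel_anti_right A (h.trans (ρ.subset_cl _))

theorem rel_cl_right (A D : Finset (Fin n)) : ρ.rel A (ρ.cl D) = ρ.rel A D :=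
  le_antisymm (ρ.rel_anti_right' A (ρ.subset_cl D)) (ρ.rel_anti_right A (Subset.refl _))

/-- Chain rule. -/
theorem rel_chain (A B D : Finset (Fin n)) :
    ρ.rel (A ∪ B) D = ρ.rel A (B ∪ D) + ρ.rel B D := by
  have h1 := ρ.rel_add (A ∪ B) D
  have h2 := ρ.rel_add A (B ∪ D)
  have h3 := ρ.rel_add B D
  rw [union_assoc] at h1
  omega

theorem rel_submod (A B D : Finset (Fin n)) :
    ρ.rel (A ∪ B) D + ρ.rel (A ∩ B) D ≤ ρ.rel A D + ρ.rel B D := by
  have h1 := ρ.rel_add (A ∪ B) D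
  have h2 := ρ.rel_add (A ∩ B) D
  have h3 := ρ.rel_add A D
  have h4 := ρ.rel_add B D
  have h5 := ρ.submod (A ∪ D) (B ∪ D)
  have e1 : A ∪ D ∪ (B ∪ D) = A ∪ B ∪ D := by ext x; simp; tauto
  have e2 : (A ∪ D) ∩ (B ∪ D) = A ∩ B ∪ D := by ext x; simp; tauto
  rw [e1, e2] at h5
  omega

theorem rel_insert_of_mem {A D : Finset (Fin n)} {a : Fin n} (h : a ∈ ρ.cl (A ∪ D)) :
    ρ.rel (insert a A) D = ρ.rel A D := by
  have h1 := ρ.rel_add (insert a A) D
  have h2 := ρ.rel_add A D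
  rw [mem_cl, ← insert_union] at h
  omega

theorem rel_insert_of_not_mem {A D : Finset (Fin n)} {a : Fin n} (h : a ∉ ρ.cl (A ∪ D)) :
    ρ.rel (insert a A) D = ρ.rel A D + 1 := by
  have h1 := ρ.rel_add (insert a A) D
  have h2 := ρ.rel_add A D
  rw [not_mem_cl, ← insert_union] at h
  omega

/-- The local connectivity `r(Z | D) - r(Z | D')` (for `D ⊆ cl D'`) is monotone in `Z`. -/
theorem conn_mono {Z Z' D D' : Finset (Fin n)} (hZ : Z ⊆ Z') (h : D ⊆ ρ.cl D') :
    ρ.rel Z D + ρ.rel Z' D' ≤ ρ.rel Z' D + ρ.rel Z D' := by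
  have e : Z' = Z' ∪ Z := (union_eq_left.2 hZ).symm
  have h1 := ρ.rel_chain Z' Z D
  have h2 := ρ.rel_chain Z' Z D'
  rw [← e] at h1 h2
  have h3 : ρ.rel Z' (Z ∪ D') ≤ ρ.rel Z' (Z ∪ D) :=
    ρ.rel_anti_right Z' (ρ.union_subset_cl (ρ.subset_cl Z) h)
  omega

/-- Loss from an extra contraction, sandwiched between two flats:
`r(X | Y) - r(X | Y ∪ Z) ≤ r(Z | Lo) - r(Z | Up)` if `Lo ⊆ cl Y` and `X ∪ Y ⊆ cl Up`. -/
theorem loss_le {X Y Z Lo Up : Finset (Fin n)} (h1 : Lo ⊆ ρ.cl Y) (h2 : X ∪ Y ⊆ ρ.cl Up) :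
    ρ.rel X Y + ρ.rel Z Up ≤ ρ.rel X (Z ∪ Y) + ρ.rel Z Lo := by
  have e1 := ρ.rel_chain X Z Y
  have e2 := ρ.rel_chain Z X Y
  rw [union_comm Z X] at e2
  have h3 := ρ.rel_anti_right Z h1
  have h4 := ρ.rel_anti_right Z h2
  omega

/-- Bases of `T` modulo `D`. -/
theorem exists_basis (T D : Finset (Fin n)) :
    ∃ A ⊆ T, A.card = ρ.rel T D ∧ ρ.rel A D = A.card ∧ T ⊆ ρ.cl (A ∪ D) := by
  induction T using Finset.induction_on with
  | empty => exact ⟨∅, Subset.refl _, by simp [rel], by simp [rel], empty_subset _⟩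
  | insert a T ha ih =>
    obtain ⟨A, hA, h1, h2, h3⟩ := ih
    have hcl : ρ.cl (A ∪ D) = ρ.cl (T ∪ D) :=
      ρ.cl_eq_of_subset ((union_subset_union hA (Subset.refl _)).trans (ρ.subset_cl _))
        (union_subset h3 (subset_union_right.trans (ρ.subset_cl _)))
    by_cases h : a ∈ ρ.cl (A ∪ D)
    · refine ⟨A, hA.trans (subset_insert _ _), ?_, h2, insert_subset h h3⟩
      rw [ρ.rel_insert_of_mem (hcl ▸ h), h1]
    · have haA : a ∉ A := fun h' => ha (hA h')
      refine ⟨insert a A, insert_subset_insert _ hA, ?_, ?_, ?_⟩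
      · rw [ρ.rel_insert_of_not_mem (hcl ▸ h), card_insert_of_notMem haA, h1]
      · rw [ρ.rel_insert_of_not_mem h, card_insert_of_notMem haA, h2]
      · refine insert_subset (ρ.subset_cl _ (by simp)) (h3.trans (ρ.cl_mono ?_))
        exact union_subset_union (subset_insert _ _) (Subset.refl _)

/-- A subset of a set independent modulo `D` is independent modulo `D`. -/
theorem rel_eq_card_of_subset {A B D : Finset (Fin n)} (hB : ρ.rel B D = B.card) (h : A ⊆ B) :
    ρ.rel A D = A.card := by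
  have h1 := ρ.rel_chain (B \ A) A D
  rw [sdiff_union_of_subset h] at h1
  have h2 := ρ.rel_le_card (B \ A) (A ∪ D)
  have h3 := ρ.rel_le_card A D
  have h4 := card_sdiff_add_card_eq_card h
  omega

theorem not_mem_cl_of_indep {A D : Finset (Fin n)} (hA : ρ.rel A D = A.card) {a : Fin n}
    (ha : a ∈ A) : a ∉ ρ.cl D := fun h => by
  have h1 := ρ.rel_eq_card_of_subset hA (singleton_subset_iff.2 ha)
  have h2 : ρ.rel {a} D = 0 := ρ.rel_eq_zero.2 (singleton_subset_iff.2 h)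
  simp [h2] at h1

/-- The elements of `T` that are not spanned by `D` and the earlier elements of `T`. -/
def greedy (T D : Finset (Fin n)) : Finset (Fin n) :=
  T.filter fun z => z ∉ ρ.cl (T.filter (· < z) ∪ D)

theorem card_greedy (T D : Finset (Fin n)) : (ρ.greedy T D).card = ρ.rel T D := by
  induction T using Finset.induction_on_max with
  | empty => simp [greedy, rel]
  | insert a T ha ih =>
    have haT : a ∉ T := fun h => lt_irrefl _ (ha a h)
    have e1 : (insert a T).filter (· < a) = T := by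
      ext x; simp only [mem_filter, mem_insert]
      constructor
      · rintro ⟨h | h, h'⟩
        · exact absurd h' (by simp [h])
        · exact h
      · intro h; exact ⟨Or.inr h, ha x h⟩
    have e2 : ∀ z ∈ T, (insert a T).filter (· < z) = T.filter (· < z) := fun z hz => by
      rw [filter_insert, if_neg (not_lt.2 (ha z hz).le)]
    have e3 : T.filter (fun z => z ∉ ρ.cl ((insert a T).filter (· < z) ∪ D)) = ρ.greedy T D :=
      filter_congr fun z hz => by rw [e2 z hz]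
    unfold greedy
    rw [filter_insert, e1, e3]
    split_ifs with h
    · rw [ih, ρ.rel_insert_of_mem h]
    · have hg : a ∉ ρ.greedy T D := fun h' => haT (mem_filter.1 h').1
      rw [card_insert_of_notMem hg, ih, ρ.rel_insert_of_not_mem h]

/-- A set whose elements are not spanned by `D` and the earlier elements of a superset is
independent modulo `D`. -/
theorem rel_eq_card_of_greedy {Z T D : Finset (Fin n)} (hZ : Z ⊆ T)
    (h : ∀ z ∈ Z, z ∉ ρ.cl (T.filter (· < z) ∪ D)) : ρ.rel Z D = Z.card := by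
  rw [← ρ.card_greedy]
  congr 1
  refine filter_true_of_mem fun z hz h' => h z hz (ρ.cl_mono ?_ h')
  exact union_subset_union (filter_subset_filter _ hZ) (Subset.refl _)

/-- A chosen basis of `T`. -/
noncomputable def basis (T : Finset (Fin n)) : Finset (Fin n) := (ρ.exists_basis T ∅).choose

theorem basis_subset (T : Finset (Fin n)) : ρ.basis T ⊆ T := (ρ.exists_basis T ∅).choose_spec.1

theorem card_basis (T : Finset (Fin n)) : (ρ.basis T).card = ρ.r T := by
  exact (ρ.exists_basis T ∅).choose_spec.2.1.trans (ρ.rel_empty_right T)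

theorem r_of_subset_basis {T A : Finset (Fin n)} (h : A ⊆ ρ.basis T) : ρ.r A = A.card := by
  have := ρ.rel_eq_card_of_subset (ρ.exists_basis T ∅).choose_spec.2.2.1 h
  rwa [rel_empty_right] at this

end Rk

end Crest.Agent.R305
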