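import Crest.Agent.R305.Dens

/-!
# Row 305: compression of a chain of density closures
-/

set_option autoImplicit false

namespace Crest.Agent.R305

open Finset
open scoped Classical

theorem compress (h : SparseStmt) : CompressStmt := by
  intro n β N ρ R F hβ hF hF0 hFN hR
  obtain ⟨D, hD⟩ : ∃ D : ℕ → Finset (Fin n), ∀ k, D k = ρ.dens β (ind R) (F k) := ⟨_, fun _ => rfl⟩
  have hDs : ∀ k, D (k + 1) ⊆ D k := fun k => by rw [hD, hD]; exact ρ.dens_mono' _ _ (hF k)
  have hDa : ∀ {j k}, j ≤ k → D k ⊆ D j := fun hjk => antitone_nat_of_succ_le (f := D) hDs hjk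
  have hD0 : D 0 = univ := by rw [hD, hF0, ρ.dens_univ]
  have hDN : D N = ρ.cl ∅ := by rw [hD, hFN, ρ.dens_empty β (by omega) hR]
  have hFD : ∀ k, F k ⊆ D k := fun k => by rw [hD]; exact ρ.subset_dens _ _ _
  obtain ⟨X, hX⟩ : ∃ X : ℕ → Finset (Fin n), ∀ k a, a ∈ X k ↔ a ∈ R ∧ a ∈ D k ∧ a ∉ D (k + 1) :=
    ⟨fun k => R ∩ (D k \ D (k + 1)), fun k a => by simp⟩
  have hXd : ∀ {j k a}, a ∈ X j → a ∈ D k → a ∉ D (k + 1) → j = k := by
    intro j k a hj h1 h2
    obtain ⟨-, h3, h4⟩ := (hX j a).1 hj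
    by_contra hne
    rcases Nat.lt_or_gt_of_ne hne with hlt | hlt
    · exact h4 (hDa hlt h1)
    · exact h2 (hDa hlt h3)
  have hex := fun k => h n β ρ (X k) (D (k + 1)) (F k) hβ
    (fun A hA => by
      have h1 := ρ.dens_upper β (ind R) (F (k + 1)) A
      rw [← hD, wt_ind] at h1
      refine le_trans (card_le_card fun a ha => ?_) h1
      obtain ⟨h2, -, h3⟩ := (hX k a).1 (hA ha)
      simp [ha, h2, h3])
    (fun S hS h1 => by
      have h2 : ρ.rel (X k) (X k \ S ∪ (D (k + 1) ∪ F k)) ≤
          ρ.rel (D k) (X k \ S ∪ (D (k + 1) ∪ F k)) :=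
        ρ.rel_mono_left' _ fun a ha => ((hX k a).1 ha).2.1
      have h3 := ρ.dens_lower β (ind R) (F := F k) (A := X k \ S ∪ (D (k + 1) ∪ F k))
        ((subset_union_right.trans subset_union_right).trans (ρ.subset_cl _))
        (by rw [← hD]; exact h1.trans h2)
      rw [← hD, wt_ind] at h3
      refine le_trans (Nat.succ_le_succ (Nat.mul_le_mul_left _ h2))
        (h3.trans (card_le_card fun a ha => ?_))
      simp only [mem_inter, mem_sdiff, mem_union, not_or, not_and, not_not] at ha
      exact ha.1.2.1 ((hX k a).2 ⟨ha.2, ha.1.1, ha.1.2.2.1⟩))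
  choose wk hsupp hU hL hcard using hex
  obtain ⟨w, hw⟩ : ∃ w : Fin n → ℕ, ∀ a, w a = ∑ k ∈ range N, wk k a := ⟨_, fun _ => rfl⟩
  have hwk : ∀ k < N, ∀ a ∈ D k, a ∉ D (k + 1) → w a = wk k a := by
    intro k hk a h1 h2
    rw [hw, sum_eq_single k]
    · intro j _ hj
      by_contra h0
      exact hj (hXd (hsupp j a h0) h1 h2)
    · intro h0
      exact absurd (mem_range.2 hk) h0
  have hne : ∀ a, w a ≠ 0 → ∃ k < N, wk k a ≠ 0 := by
    intro a ha
    rw [hw] at ha
    obtain ⟨k, hk, h0⟩ := exists_ne_zero_of_sum_ne_zero ha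
    exact ⟨k, mem_range.1 hk, h0⟩
  have hsplit : ∀ k < N, ∀ B B' : Finset (Fin n), (∀ a ∈ B, a ∈ D k ∧ a ∉ D (k + 1)) →
      (∀ a, a ∈ B' ↔ a ∈ B ∧ a ∈ X k) → wt w B = wt (wk k) B' := by
    intro k hk B B' hB hB'
    unfold wt
    rw [sum_congr rfl fun a ha => hwk k hk a (hB a ha).1 (hB a ha).2]
    refine (sum_subset (fun a ha => ((hB' a).1 ha).1) fun a ha ha' => ?_).symm
    by_contra h0
    exact ha' ((hB' a).2 ⟨ha, hsupp k a h0⟩)
  have hUk : ∀ k ≤ N, ∀ A, wt w (A \ D k) ≤ β * ρ.rel A (D k) := by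
    intro k
    induction k with
    | zero =>
      intro _ A
      rw [hD0, sdiff_eq_empty_iff_subset.2 (subset_univ _), wt_empty]
      exact Nat.zero_le _
    | succ k ih =>
      intro hk A
      have h1 := wt_sdiff_add_inter w (A \ D (k + 1)) (D k)
      have e1 : (A \ D (k + 1)) \ D k = A \ D k := by
        ext a
        simp only [mem_sdiff]
        exact ⟨fun h => ⟨h.1.1, h.2⟩, fun h => ⟨⟨h.1, fun h' => h.2 (hDs k h')⟩, h.2⟩⟩
      have e2 := hsplit k hk ((A \ D (k + 1)) ∩ D k) (A ∩ X k)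
        (fun a ha => by
          simp only [mem_inter, mem_sdiff] at ha
          exact ⟨ha.2, ha.1.2⟩)
        (fun a => by
          simp only [mem_inter, mem_sdiff, hX]
          tauto)
      have h2 := ih (by omega) A
      have h3 := hU k (A ∩ X k) inter_subset_right
      have h4 : ρ.rel A (D k) ≤ ρ.rel A (A ∩ X k ∪ D (k + 1)) :=
        ρ.rel_anti_right' _ (union_subset (fun a ha => ((hX k a).1 (mem_inter.1 ha).2).2.1) (hDs k))
      have h5 := ρ.rel_chain A (A ∩ X k) (D (k + 1))
      rw [union_eq_left.2 inter_subset_left] at h5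
      rw [← h1, e1, e2, h5, mul_add]
      exact add_le_add (h2.trans (Nat.mul_le_mul_left _ h4)) h3
  have hLk : ∀ k ≤ N, ∀ A, F k ⊆ A → 1 ≤ ρ.rel (D k) A →
      β * ρ.rel (D k) A + 1 ≤ wt w (D k \ A) := by
    intro k hk
    induction hk using Nat.decreasingInduction with
    | self =>
      intro A _ h1
      have : ρ.rel (D N) A = 0 := ρ.rel_eq_zero.2 (hDN ▸ ρ.cl_mono (empty_subset _))
      omega
    | of_succ k hk ih =>
      intro A hA h1
      have h2 : D k ⊆ ρ.cl ((X k ∪ D (k + 1)) ∪ A) := by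
        have h3 := ρ.dens_span β (ind R) (F k)
        rw [← hD] at h3
        refine h3.trans (ρ.cl_mono (union_subset_union (fun a ha => ?_) hA))
        rw [mem_filter] at ha
        have haR : a ∈ R := by
          by_contra h0
          exact ha.2 (if_neg h0)
        by_cases h4 : a ∈ D (k + 1)
        · exact mem_union_right _ h4
        · exact mem_union_left _ ((hX k a).2 ⟨haR, ha.1, h4⟩)
      have h3 := ρ.rel_mono_left h2
      rw [ρ.rel_chain] at h3
      have h4 : ρ.rel (X k) (D (k + 1) ∪ A) ≤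
          ρ.rel (X k) (X k \ (X k \ A) ∪ (D (k + 1) ∪ F k)) := by
        refine ρ.rel_anti_right' _ (union_subset (fun a ha => mem_union_right _ ?_)
          (union_subset_union Subset.rfl hA))
        simp only [mem_sdiff, not_and, not_not] at ha
        exact ha.2 ha.1
      have h5 := hL k (X k \ A) sdiff_subset
      have h6 := ih A ((hF k).trans hA)
      have h7 := wt_sdiff_add_inter w (D k \ A) (D (k + 1))
      have e1 : (D k \ A) ∩ D (k + 1) = D (k + 1) \ A := by
        ext a
        simp only [mem_inter, mem_sdiff]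
        exact ⟨fun h => ⟨h.2, h.1.2⟩, fun h => ⟨⟨hDs k h.1, h.2⟩, h.1⟩⟩
      have e2 := hsplit k hk ((D k \ A) \ D (k + 1)) (X k \ A)
        (fun a ha => by
          simp only [mem_sdiff] at ha
          exact ⟨ha.1.1, ha.2⟩)
        (fun a => by
          simp only [mem_sdiff, hX]
          tauto)
      rw [← h7, e1, e2]
      set a := ρ.rel (X k) (X k \ (X k \ A) ∪ (D (k + 1) ∪ F k))
      set b := ρ.rel (D (k + 1)) A
      have h8 : β * ρ.rel (D k) A ≤ β * a + β * b := by
        rw [← mul_add]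
        exact Nat.mul_le_mul_left _ (by omega)
      rcases Nat.eq_zero_or_pos a with ha | ha
      · have := h6 (by omega)
        rw [ha] at h8
        omega
      · have h9 := h5 ha
        rcases Nat.eq_zero_or_pos b with hb | hb
        · rw [hb] at h8
          omega
        · have := h6 hb
          omega
  refine ⟨w, fun a ha => ?_, fun a => ?_, ?_, fun k hk => ?_⟩
  · obtain ⟨k, -, h0⟩ := hne a ha
    exact ((hX k a).1 (hsupp k a h0)).1
  · by_cases ha : w a = 0
    · omega
    obtain ⟨k, hk, h0⟩ := hne a ha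
    have h1 := hsupp k a h0
    have h2 := hU k {a} (singleton_subset_iff.2 h1)
    have h3 := ρ.rel_le_card {a} (D (k + 1))
    rw [card_singleton] at h3
    rw [wt, sum_singleton] at h2
    rw [hwk k hk a ((hX k a).1 h1).2.1 ((hX k a).1 h1).2.2]
    exact h2.trans (by simpa using Nat.mul_le_mul_left β h3)
  · have h1 : (R.filter fun a => w a ≠ 0) ⊆
        (range N).biUnion fun k => (X k).filter fun a => wk k a ≠ 0 := by
      intro a ha
      obtain ⟨k, hk, h0⟩ := hne a (mem_filter.1 ha).2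
      exact mem_biUnion.2 ⟨k, mem_range.2 hk, mem_filter.2 ⟨hsupp k a h0, h0⟩⟩
    have h2 : ∑ k ∈ range N, (X k).card ≤ R.card := by
      rw [← card_biUnion]
      · exact card_le_card (biUnion_subset.2 fun k _ a ha => ((hX k a).1 ha).1)
      · intro j _ k _ hjk
        exact disjoint_left.2 fun a ha ha' =>
          hjk (hXd ha ((hX k a).1 ha').2.1 ((hX k a).1 ha').2.2)
    calc β * (R.filter fun a => w a ≠ 0).card
        ≤ β * ∑ k ∈ range N, ((X k).filter fun a => wk k a ≠ 0).card :=
          Nat.mul_le_mul_left _ ((card_le_card h1).trans card_biUnion_le)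
      _ ≤ ∑ k ∈ range N, 3 * (X k).card := by
          rw [mul_sum]
          exact sum_le_sum fun k _ => hcard k
      _ ≤ 3 * R.card := by
          rw [← mul_sum]
          exact Nat.mul_le_mul_left _ h2
  · rw [← hD]
    exact ρ.dens_eq β w (by rw [hD, ρ.cl_dens]) (hFD k) (hUk k hk) (hLk k hk)

end Crest.Agent.R305
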