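import Crest.Agent.R305.Defs

/-!
# Row 305: finite product expectations
-/

set_option autoImplicit false

namespace Crest.Agent.R305

open Finset
open scoped Classical

variable {n : ℕ} {L : Type} [Fintype L] {q : L → ℝ}

theorem q0_nonneg (b : Bool) : 0 ≤ q0 b := by unfold q0; norm_num
theorem q0_sum : ∑ b, q0 b = 1 := by simp [q0]
theorem q1_nonneg (b : Bool) : 0 ≤ q1 b := by unfold q1; split_ifs <;> norm_num
theorem q1_sum : ∑ b, q1 b = 1 := by simp [q1]; norm_num
theorem q2_nonneg (b : Fin 3) : 0 ≤ q2 b := by unfold q2; split_ifs <;> norm_num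
theorem q2_zero : q2 0 = 1 / 2 := by simp [q2]
theorem q2_one : q2 1 = 1 / 2 ^ 17 := by simp [q2]
theorem q2_two : q2 2 = 1 / 2 - 1 / 2 ^ 17 := by
  unfold q2; rw [if_neg (by decide), if_neg (by decide)]
theorem q2_sum : ∑ b, q2 b = 1 := by
  rw [Fin.sum_univ_three, q2_zero, q2_one, q2_two]; norm_num

theorem Ex_congr {f g : (Fin n → L) → ℝ} (h : ∀ ω, f ω = g ω) : Ex q f = Ex q g := by
  rw [funext h]

theorem Ex_add (f g : (Fin n → L) → ℝ) : (Ex q fun ω => f ω + g ω) = Ex q f + Ex q g := by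
  simp [Ex, mul_add, sum_add_distrib]

theorem Ex_sub (f g : (Fin n → L) → ℝ) : (Ex q fun ω => f ω - g ω) = Ex q f - Ex q g := by
  simp [Ex, mul_sub, sum_sub_distrib]

theorem Ex_const_mul (a : ℝ) (f : (Fin n → L) → ℝ) : (Ex q fun ω => a * f ω) = a * Ex q f := by
  simp only [Ex, mul_sum]
  exact sum_congr rfl fun ω _ => by ring

theorem Ex_sum {ι : Type*} (s : Finset ι) (f : ι → (Fin n → L) → ℝ) :
    (Ex q fun ω => ∑ i ∈ s, f i ω) = ∑ i ∈ s, Ex q (f i) := by
  simp only [Ex, mul_sum]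
  rw [sum_comm]

theorem Ex_mono (hq : ∀ x, 0 ≤ q x) {f g : (Fin n → L) → ℝ} (h : ∀ ω, f ω ≤ g ω) :
    Ex q f ≤ Ex q g :=
  sum_le_sum fun ω _ => mul_le_mul_of_nonneg_left (h ω) (prod_nonneg fun _ _ => hq _)

/-- The expectation of a product of one-coordinate functions. -/
theorem Ex_prod (g : Fin n → L → ℝ) :
    (Ex q fun ω => ∏ a, g a (ω a)) = ∏ a, ∑ x, q x * g a x := by
  rw [Finset.prod_univ_sum, Fintype.piFinset_univ]
  unfold Ex
  exact sum_congr rfl fun ω _ => by rw [prod_mul_distrib]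

theorem Ex_const (hq : ∑ x, q x = 1) (a : ℝ) : (Ex (n := n) q fun _ => a) = a := by
  have h := Ex_prod (n := n) (q := q) fun _ _ => 1
  simp only [prod_const_one, mul_one, hq] at h
  have h2 := Ex_const_mul (n := n) (q := q) a fun _ => 1
  simpa [h] using h2

theorem Ex_nonneg (hq : ∀ x, 0 ≤ q x) {f : (Fin n → L) → ℝ} (h : ∀ ω, 0 ≤ f ω) : 0 ≤ Ex q f :=
  sum_nonneg fun ω _ => mul_nonneg (prod_nonneg fun _ _ => hq _) (h ω)

theorem Ex_nonpos (hq : ∀ x, 0 ≤ q x) {f : (Fin n → L) → ℝ} (h : ∀ ω, f ω ≤ 0) : Ex q f ≤ 0 :=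
  sum_nonpos fun ω _ => mul_nonpos_of_nonneg_of_nonpos (prod_nonneg fun _ _ => hq _) (h ω)

/-- Fubini. -/
theorem Ex_comm {L' : Type} [Fintype L'] (q' : L' → ℝ) (f : (Fin n → L) → (Fin n → L') → ℝ) :
    (Ex q fun ω => Ex q' fun η => f ω η) = Ex q' fun η => Ex q fun ω => f ω η := by
  simp only [Ex, mul_sum]
  rw [sum_comm]
  exact sum_congr rfl fun η _ => sum_congr rfl fun ω _ => by ring

/-- The probability that all labels on `T` equal `x`. -/
theorem Ex_all (hq : ∑ x, q x = 1) (T : Finset (Fin n)) (x : L)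
    [∀ ω : Fin n → L, Decidable (∀ a ∈ T, ω a = x)] :
    (Ex q fun ω => if ∀ a ∈ T, ω a = x then 1 else 0) = q x ^ T.card := by
  have h := Ex_prod (n := n) (q := q) fun a y => if a ∈ T then (if y = x then 1 else 0) else 1
  have e1 : ∀ ω : Fin n → L, (∏ a, if a ∈ T then (if ω a = x then (1 : ℝ) else 0) else 1) =
      if ∀ a ∈ T, ω a = x then 1 else 0 := fun ω => by
    rw [← prod_filter, filter_mem_eq_inter, univ_inter, prod_boole]
    congr
  have e2 : ∀ a : Fin n, (∑ y, q y * if a ∈ T then (if y = x then (1 : ℝ) else 0) else 1) =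
      if a ∈ T then q x else 1 := fun a => by
    split_ifs <;> simp [hq]
  simp only [e1, e2] at h
  rw [h, ← prod_filter, filter_mem_eq_inter, univ_inter, prod_const]

/-- Replace the labels on `S` by those of `η`. -/
noncomputable def merge (S : Finset (Fin n)) (η ω : Fin n → L) : Fin n → L :=
  fun a => if a ∈ S then η a else ω a

omit [Fintype L] in
theorem merge_of_mem {S : Finset (Fin n)} {η ω : Fin n → L} {a : Fin n} (h : a ∈ S) :
    merge S η ω a = η a := if_pos h

omit [Fintype L] in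
theorem merge_of_not_mem {S : Finset (Fin n)} {η ω : Fin n → L} {a : Fin n} (h : a ∉ S) :
    merge S η ω a = ω a := if_neg h

/-- Resampling on a stopping set does not change the law. -/
theorem Ex_merge (hq : ∑ x, q x = 1) (S : (Fin n → L) → Finset (Fin n))
    (hS : ∀ ω η, S (merge (S ω) η ω) = S ω) (f : (Fin n → L) → ℝ) :
    Ex q f = Ex q fun ω => Ex q fun η => f (merge (S ω) η ω) := by
  have h1 : Ex q f = Ex q fun ω => Ex q fun _ : Fin n → L => f ω :=
    Ex_congr fun ω => (Ex_const hq _).symm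
  rw [h1]
  simp only [Ex, mul_sum]
  rw [← Fintype.sum_prod_type', ← Fintype.sum_prod_type']
  let T : (Fin n → L) × (Fin n → L) → (Fin n → L) × (Fin n → L) :=
    fun p => (merge (S p.1) p.2 p.1, merge (S p.1) p.1 p.2)
  have hT : Function.Involutive T := by
    rintro ⟨ω, η⟩
    simp only [T, hS]
    refine Prod.ext (funext fun a => ?_) (funext fun a => ?_) <;>
      by_cases h : a ∈ S ω <;> simp [merge, h]
  rw [← Equiv.sum_comp hT.toPerm]
  refine sum_congr rfl fun p _ => ?_
  have hw : (∏ a, q (merge (S p.1) p.2 p.1 a)) * ∏ a, q (merge (S p.1) p.1 p.2 a) =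
      (∏ a, q (p.1 a)) * ∏ a, q (p.2 a) := by
    rw [← prod_mul_distrib, ← prod_mul_distrib]
    refine prod_congr rfl fun a _ => ?_
    by_cases h : a ∈ S p.1 <;> simp [merge, h, mul_comm]
  simp only [Function.Involutive.coe_toPerm, T]
  rw [← mul_assoc, ← mul_assoc, hw]

/-- Resampling on a fixed set. -/
theorem Ex_merge_const (hq : ∑ x, q x = 1) (S : Finset (Fin n)) (f : (Fin n → L) → ℝ) :
    Ex q f = Ex q fun ω => Ex q fun η => f (merge S η ω) :=
  Ex_merge hq (fun _ => S) (fun _ _ => rfl) f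

/-- Resampling one coordinate. -/
theorem Ex_update (hq : ∑ x, q x = 1) (t : Fin n) (f : (Fin n → L) → ℝ) :
    Ex q f = Ex q fun ω => ∑ x, q x * f (Function.update ω t x) := by
  rw [Ex_merge_const hq {t} f]
  refine Ex_congr fun ω => ?_
  have e1 : ∀ η : Fin n → L, f (merge {t} η ω) =
      ∑ x, f (Function.update ω t x) * if ∀ a ∈ ({t} : Finset (Fin n)), η a = x then 1 else 0 := by
    intro η
    have : merge {t} η ω = Function.update ω t (η t) := by
      funext a
      by_cases h : a = t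
      · subst h; simp [merge]
      · simp [merge, h]
    simp [this]
  rw [Ex_congr e1, Ex_sum]
  refine sum_congr rfl fun x _ => ?_
  rw [Ex_const_mul, Ex_all hq, card_singleton, pow_one, mul_comm]

/-- A label is independent of a function that ignores it. -/
theorem Ex_indep [DecidableEq L] (hq : ∑ x, q x = 1) (t : Fin n) (x : L) (f : (Fin n → L) → ℝ)
    (hf : ∀ ω y, f (Function.update ω t y) = f ω) :
    (Ex q fun ω => if ω t = x then f ω else 0) = q x * Ex q f := by
  rw [Ex_update hq t, ← Ex_const_mul]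
  refine Ex_congr fun ω => ?_
  simp [hf]

end Crest.Agent.R305
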