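import Crest.Agent.R305.Struct
import Crest.Agent.R305.Prob

/-!
# Row 305: the expected gain of one class
-/

set_option autoImplicit false

namespace Crest.Agent.R305

open Finset
open scoped Classical

variable {n : ℕ}

theorem Core_exit (hR : RankStmt) (ρ : Rk n) {E : Finset (Fin n)} (c : Fin n → K)
    (hE : ∀ s ∈ E, s ∉ ρ.cl ∅) (ℓ : Fin n → Fin 3) (i : K) {J : Finset (Fin n)}
    (hJ : J ⊆ E.filter fun s => c s = i) (hJi : ρ.r J = J.card) :
    (1 / 256 : ℝ) * J.card / 28 - (1 / 256 : ℝ) ^ 2 * (E.filter fun s => c s = i).card ≤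
      Ex q1 fun σ1 => ∑ k ∈ range (n + 1), (exitRk ρ E c σ1 ℓ i k : ℝ) := by
  set C := E.filter fun s => c s = i with hC
  rw [Ex_merge_const q1_sum C, ← Ex_const (n := n) q1_sum
    ((1 / 256 : ℝ) * J.card / 28 - (1 / 256 : ℝ) ^ 2 * C.card)]
  refine Ex_mono q1_nonneg fun σ1 => ?_
  refine (hR n (n + 1) ρ C J (Fp ρ E c σ1 ℓ i) hJ hJi (Fp_succ_subset ρ E c σ1 ℓ i) rfl
    (Fp_last ρ E c σ1 ℓ hE i)).trans (le_of_eq (Ex_congr fun η => sum_congr rfl fun k _ => ?_))
  have hB : Boost ρ E c (merge C η σ1) i = ρ.basis (C.filter fun s => η s = true) := by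
    unfold Boost
    congr 1
    exact filter_congr fun s hs => by rw [merge_of_mem hs]
  have hF : ∀ k, Fp ρ E c (merge C η σ1) ℓ i k = Fp ρ E c σ1 ℓ i k := fun k =>
    Fp_local (fun s hs => ⟨merge_of_not_mem fun h => hs.ne (mem_filter.1 h).2, rfl⟩) k
  have hD : ∀ k, Dp ρ E c (merge C η σ1) ℓ i k =
      ρ.dens 12 (ind (ρ.basis (C.filter fun s => η s = true))) (Fp ρ E c σ1 ℓ i k) := fun k => by
    unfold Dp Dop
    rw [hB, hF]
  have hH : (H ρ E c (merge C η σ1) ℓ k).filter (fun s => c s = i) =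
      (C.filter fun s => η s = false) ∩ Dp ρ E c (merge C η σ1) ℓ i k := by
    ext s
    simp only [mem_filter, mem_H, mem_inter]
    constructor
    · rintro ⟨⟨h1, h2, h3⟩, h4⟩
      have hs : s ∈ C := mem_filter.2 ⟨h1, h4⟩
      rw [merge_of_mem hs] at h2
      exact ⟨⟨hs, h2⟩, h4 ▸ h3⟩
    · rintro ⟨⟨hs, h2⟩, h3⟩
      obtain ⟨h1, h4⟩ := mem_filter.1 hs
      exact ⟨⟨h1, by rw [merge_of_mem hs]; exact h2, h4 ▸ h3⟩, h4⟩
  unfold exitRk
  rw [hH, hD, hD]

theorem Core_gain (hR : RankStmt) (hG : GainStmt) (ρ : Rk n) {E : Finset (Fin n)} (c : Fin n → K)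
    (hE : ∀ s ∈ E, s ∉ ρ.cl ∅) (i : K) {J : Finset (Fin n)}
    (hJ : J ⊆ E.filter fun s => c s = i) (hJi : ρ.r J = J.card) :
    (1 / 2 ^ 17 : ℝ) * ((1 / 7168 : ℝ) * J.card -
        (1 / 2 ^ 15 : ℝ) * (E.filter fun s => c s = i).card) ≤
      Ex q1 fun σ1 => Ex q2 fun ℓ => ∑ k ∈ range (n + 1), (gain ρ E c σ1 ℓ i k : ℝ) := by
  refine le_trans ?_ (Ex_mono q1_nonneg fun σ1 => hG n ρ E c σ1 i)
  rw [Ex_const_mul, Ex_sub, Ex_const q1_sum, Ex_comm]
  have h1 := Ex_mono (n := n) q2_nonneg fun ℓ => Core_exit hR ρ c hE ℓ i hJ hJi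
  rw [Ex_const q2_sum] at h1
  have h2 : (ρ.r (E.filter fun s => c s = i) : ℝ) ≤ (E.filter fun s => c s = i).card := by
    exact_mod_cast ρ.le_card _
  refine mul_le_mul_of_nonneg_left ?_ (by positivity)
  norm_num at h1 ⊢
  linarith

theorem Core_pre (c : Fin n → K) {i : K} {e : Fin n} (he : c e = i) :
    (univ.filter fun s => c s = i).filter (· < e) ∪ (univ.filter fun s => i < c s) = pre c e := by
  ext t
  simp only [pre, mem_union, mem_filter, mem_univ, true_and, he]
  exact or_comm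

theorem Core_half (J : Finset (Fin n)) :
    (Ex q0 fun σ0 => ((J.filter fun s => σ0 s = false).card : ℝ)) = (1 / 2 : ℝ) * J.card := by
  simp only [card_filter, Nat.cast_sum, Nat.cast_ite, Nat.cast_one, Nat.cast_zero]
  rw [Ex_sum, sum_congr rfl fun e _ => Ex_indep q0_sum e false (fun _ => 1) fun _ _ => rfl]
  simp [Ex_const q0_sum, q0, mul_comm]

theorem Core_card (ρ : Rk n) (c : Fin n → K) (i : K) :
    (Ex q0 fun σ0 => (((Imp ρ c σ0).filter fun s => c s = i).card : ℝ)) ≤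
      ρ.r (univ.filter fun s => i ≤ c s) := by
  set Ci := univ.filter fun s => c s = i with hCi
  set g : Fin n → (Fin n → Bool) → ℝ := fun e σ0 =>
    if e ∉ ρ.cl ((pre c e).filter fun t => σ0 t = true) then 1 else 0 with hg
  have hgi : ∀ e ω y, g e (Function.update ω e y) = g e ω := by
    intro e ω y
    have : ((pre c e).filter fun t => Function.update ω e y t = true) =
        (pre c e).filter fun t => ω t = true := by
      refine filter_congr fun t ht => ?_
      rw [Function.update_of_ne]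
      rintro rfl
      simp [pre] at ht
    simp only [hg, this]
  have h1 : ∀ σ0 : Fin n → Bool, (((Imp ρ c σ0).filter fun s => c s = i).card : ℝ) =
      ∑ e ∈ Ci, if σ0 e = false then g e σ0 else 0 := by
    intro σ0
    have : ((Imp ρ c σ0).filter fun s => c s = i) = Ci.filter fun e =>
        σ0 e = false ∧ e ∉ ρ.cl ((pre c e).filter fun t => σ0 t = true) := by
      ext e
      simp only [Imp, hCi, mem_filter, mem_univ, true_and]
      exact and_comm
    rw [this, card_filter]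
    simp only [Nat.cast_sum, Nat.cast_ite, Nat.cast_one, Nat.cast_zero, hg, ite_and]
  have h2 : ∀ σ0 : Fin n → Bool, (∑ e ∈ Ci, if σ0 e = true then g e σ0 else 0) ≤
      (ρ.r (univ.filter fun s => i ≤ c s) : ℝ) := by
    intro σ0
    set W := Ci.filter fun e =>
      σ0 e = true ∧ e ∉ ρ.cl ((pre c e).filter fun t => σ0 t = true) with hW
    have e1 : (∑ e ∈ Ci, if σ0 e = true then g e σ0 else 0) = (W.card : ℝ) := by
      rw [hW, card_filter]
      simp only [Nat.cast_sum, Nat.cast_ite, Nat.cast_one, Nat.cast_zero, hg, ite_and]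
    have e2 : ρ.rel W ∅ = W.card := by
      refine ρ.rel_eq_card_of_greedy (T := Ci.filter fun t => σ0 t = true)
        (fun e he => mem_filter.2 ⟨(mem_filter.1 he).1, (mem_filter.1 he).2.1⟩)
        fun z hz h => (mem_filter.1 hz).2.2 (ρ.cl_mono (fun t ht => ?_) h)
      have hz' : c z = i := (mem_filter.1 (mem_filter.1 hz).1).2
      simp only [union_empty, mem_filter, hCi, mem_univ, true_and] at ht
      simp only [pre, mem_filter, mem_univ, true_and]
      exact ⟨Or.inr ⟨ht.1.1.trans hz'.symm, ht.2⟩, ht.1.2⟩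
    rw [ρ.rel_empty_right] at e2
    rw [e1, ← e2]
    refine Nat.cast_le.2 (ρ.mono fun s hs => ?_)
    exact mem_filter.2 ⟨mem_univ _, (mem_filter.1 (mem_filter.1 hs).1).2.ge⟩
  have h3 := Ex_mono (n := n) q0_nonneg h2
  rw [Ex_const q0_sum, Ex_sum,
    sum_congr rfl fun e _ => Ex_indep q0_sum e true (g e) (hgi e)] at h3
  rw [Ex_congr h1, Ex_sum, sum_congr rfl fun e _ => Ex_indep q0_sum e false (g e) (hgi e)]
  exact h3

theorem coreStmt (hR : RankStmt) (hG : GainStmt) : CoreStmt := by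
  intro n ρ c i
  set Ci := univ.filter fun s => c s = i with hCi
  set Z := univ.filter fun s => i < c s with hZ
  set J0 := ρ.greedy Ci Z with hJ0
  have hU : Ci ∪ Z = univ.filter fun s => i ≤ c s := by
    ext s
    simp only [hCi, hZ, mem_union, mem_filter, mem_univ, true_and, le_iff_eq_or_lt, eq_comm]
  have h1 : (J0.card : ℝ) + ρ.r Z = ρ.r (univ.filter fun s => i ≤ c s) := by
    rw [hJ0, ρ.card_greedy, ← hU]
    exact_mod_cast ρ.rel_add Ci Z
  have h2 : ρ.rel J0 Z = J0.card :=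
    ρ.rel_eq_card_of_greedy (T := Ci) (filter_subset _ _) fun z hz => (mem_filter.1 hz).2
  have h3 : ∀ σ0 : Fin n → Bool, (1 / 2 ^ 17 : ℝ) *
      ((1 / 7168 : ℝ) * (J0.filter fun s => σ0 s = false).card -
        (1 / 2 ^ 15 : ℝ) * ((Imp ρ c σ0).filter fun s => c s = i).card) ≤
      Ex q1 fun σ1 => Ex q2 fun ℓ =>
        ∑ k ∈ range (n + 1), (gain ρ (Imp ρ c σ0) c σ1 ℓ i k : ℝ) := by
    intro σ0
    refine Core_gain hR hG ρ c (Imp_loopless ρ c σ0) i (fun e he => ?_) ?_
    · obtain ⟨h4, h5⟩ := mem_filter.1 he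
      obtain ⟨h6, h7⟩ := mem_filter.1 h4
      have h8 : c e = i := (mem_filter.1 h6).2
      rw [hCi, hZ, Core_pre c h8] at h7
      exact mem_filter.2 ⟨mem_filter.2 ⟨mem_univ _, h5,
        fun h => h7 (ρ.cl_mono (filter_subset _ _) h)⟩, h8⟩
    · refine le_antisymm (ρ.le_card _) ?_
      rw [← ρ.rel_eq_card_of_subset h2 (filter_subset _ _)]
      exact ρ.rel_le_r _ _
  refine le_trans ?_ (Ex_mono q0_nonneg h3)
  rw [Ex_const_mul, Ex_sub, Ex_const_mul, Ex_const_mul, Core_half]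
  have h4 := Core_card ρ c i
  have h5 : (0 : ℝ) ≤ ρ.r Z := by positivity
  have h6 : (0 : ℝ) ≤ J0.card := by positivity
  norm_num at h4 ⊢
  linarith

end Crest.Agent.R305
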