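import Crest.Agent.R305.Basic
import Crest.Prelude.Def_SampleRule

/-!
# Row 305 (S0468): definitions and the claims of the proof

Larger class = heavier.  Seeds: a residue `a : Fin 3`, bits `σ0` (filter sample `S0`, rate 1/2),
bits `σ1` (booster sample `R`, rate 1/256), labels `ℓ : Fin 3` (`0 = P` sample, rate 1/2;
`1 = U` eligible arrival, rate 2^-17; `2` = ignored).
-/

set_option autoImplicit false

namespace Crest.Agent.R305

open Finset
open scoped Classical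

variable {n : ℕ}

/-! ### Weights and the density closure -/

/-- Total weight of a set. -/
def wt (w : Fin n → ℕ) (A : Finset (Fin n)) : ℕ := ∑ a ∈ A, w a

/-- Indicator weight. -/
def ind (A : Finset (Fin n)) : Fin n → ℕ := fun a => if a ∈ A then 1 else 0

/-- The supermodular objective `w(A) - β r(A ∪ F)`. -/
def Rk.phi (ρ : Rk n) (β : ℕ) (w : Fin n → ℕ) (F A : Finset (Fin n)) : ℤ :=
  (wt w A : ℤ) - (β : ℤ) * (ρ.r (A ∪ F) : ℤ)

/-- The least maximiser of `phi`. -/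
noncomputable def Rk.core (ρ : Rk n) (β : ℕ) (w : Fin n → ℕ) (F : Finset (Fin n)) :
    Finset (Fin n) :=
  univ.filter fun a => ∀ A, (∀ B, ρ.phi β w F B ≤ ρ.phi β w F A) → a ∈ A

/-- The density closure of `F`. -/
noncomputable def Rk.dens (ρ : Rk n) (β : ℕ) (w : Fin n → ℕ) (F : Finset (Fin n)) :
    Finset (Fin n) :=
  ρ.cl (ρ.core β w F ∪ F)

/-! ### Finite product expectations -/

/-- Expectation for i.i.d. labels with weights `q`. -/
noncomputable def Ex {L : Type} [Fintype L] (q : L → ℝ) (f : (Fin n → L) → ℝ) : ℝ :=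
  ∑ ω : Fin n → L, (∏ a, q (ω a)) * f ω

noncomputable def q0 : Bool → ℝ := fun _ => 1 / 2
noncomputable def q1 : Bool → ℝ := fun b => if b = true then 1 / 256 else 255 / 256
noncomputable def q2 : Fin 3 → ℝ :=
  fun x => if x = 0 then 1 / 2 else if x = 1 then 1 / 2 ^ 17 else 1 / 2 - 1 / 2 ^ 17

/-- The seed space. -/
abbrev Seed (n : ℕ) : Type := Fin 3 × (Fin n → Bool) × (Fin n → Bool) × (Fin n → Fin 3)

/-- The probability of a seed. -/
noncomputable def sw (r : Seed n) : ℝ :=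
  (1 / 3) * (∏ a, q0 (r.2.1 a)) * (∏ a, q1 (r.2.2.1 a)) * ∏ a, q2 (r.2.2.2 a)

/-! ### The depth structure -/

/-- Classes (`⊥` = weight zero). -/
abbrev K : Type := WithBot ℤ

section Struct

variable (ρ : Rk n) (E : Finset (Fin n)) (c : Fin n → K) (σ1 : Fin n → Bool) (ℓ : Fin n → Fin 3)

/-- The boosters of class `i`: a basis of `R ∩ E ∩ C_i`. -/
noncomputable def Boost (i : K) : Finset (Fin n) :=
  ρ.basis ((E.filter fun s => c s = i).filter fun s => σ1 s = true)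

/-- The density closure used for class `i`. -/
noncomputable def Dop (i : K) (F : Finset (Fin n)) : Finset (Fin n) :=
  ρ.dens 12 (ind (Boost ρ E c σ1 i)) F

/-- The generators alive at level `k`. -/
noncomputable def G : ℕ → Finset (Fin n)
  | 0 => E.filter fun s => (σ1 s = false ∧ ℓ s = 0) ∨ s ∈ Boost ρ E c σ1 (c s)
  | k + 1 => (G k).filter fun s => s ∈ Dop ρ E c σ1 (c s) ((G k).filter fun t => c t < c s)

/-- The chain seen by class `i`. -/
noncomputable def Fp (i : K) : ℕ → Finset (Fin n)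
  | 0 => univ
  | k + 1 => (G ρ E c σ1 ℓ k).filter fun t => c t < i

/-- The flats of class `i`. -/
noncomputable def Dp (i : K) (k : ℕ) : Finset (Fin n) := Dop ρ E c σ1 i (Fp ρ E c σ1 ℓ i k)

/-- The non-booster elements of depth at least `k`. -/
noncomputable def H (k : ℕ) : Finset (Fin n) :=
  E.filter fun s => σ1 s = false ∧ s ∈ Dp ρ E c σ1 ℓ (c s) k

/-- The `U`-elements of depth exactly `k`. -/
noncomputable def Elig (k : ℕ) : Finset (Fin n) :=
  (H ρ E c σ1 ℓ k \ H ρ E c σ1 ℓ (k + 1)).filter fun s => ℓ s = 1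

/-- The threat to class `i` at level `k`. -/
noncomputable def Xi (i : K) (k : ℕ) : Finset (Fin n) :=
  (((G ρ E c σ1 ℓ k).filter fun s => σ1 s = true) ∪
    ((H ρ E c σ1 ℓ (k + 1)).filter fun s => ℓ s = 0) ∪ Elig ρ E c σ1 ℓ k).filter fun t => c t < i

/-- The guaranteed gain of class `i` at level `k`. -/
noncomputable def gain (i : K) (k : ℕ) : ℕ :=
  ρ.rel ((Elig ρ E c σ1 ℓ k).filter fun s => c s = i) (Dop ρ E c σ1 i (Xi ρ E c σ1 ℓ i k))

/-- The rank of the class-`i` elements leaving at level `k`. -/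
noncomputable def exitRk (i : K) (k : ℕ) : ℕ :=
  ρ.rel ((H ρ E c σ1 ℓ k).filter fun s => c s = i) (Dp ρ E c σ1 ℓ i (k + 1))

end Struct

/-- The elements before `e` in the order (heavier class first, then smaller index). -/
noncomputable def pre (c : Fin n → K) (e : Fin n) : Finset (Fin n) :=
  univ.filter fun t => c e < c t ∨ (c t = c e ∧ t < e)

/-- The improving elements: not in `S0` and not spanned by the earlier elements of `S0`. -/
noncomputable def Imp (ρ : Rk n) (c : Fin n → K) (σ0 : Fin n → Bool) : Finset (Fin n) :=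
  univ.filter fun e => σ0 e = false ∧ e ∉ ρ.cl ((pre c e).filter fun t => σ0 t = true)

/-! ### The greedy rule -/

/-- One greedy step: level `k` runs greedy on `El k` modulo `Ψ k`. -/
noncomputable def step (ρ : Rk n) (El Ψ : ℕ → Finset (Fin n)) (A : Finset (Fin n)) (e : Fin n) :
    Finset (Fin n) :=
  if ∃ k, e ∈ El k ∧ e ∉ ρ.cl (A ∩ El k ∪ Ψ k) then insert e A else A

/-- The accepted set along an arrival list. -/
noncomputable def acc (ρ : Rk n) (El Ψ : ℕ → Finset (Fin n)) (l : List (Fin n)) :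
    Finset (Fin n) :=
  l.foldl (step ρ El Ψ) ∅

/-- Eligible elements of level `k` for the seed `r`. -/
noncomputable def ElS (ρ : Rk n) (c : Fin n → K) (r : Seed n) (k : ℕ) : Finset (Fin n) :=
  if k % 3 = r.1.val then Elig ρ (Imp ρ c r.2.1) c r.2.2.1 r.2.2.2 k else ∅

/-- The contracted set of level `k` for the seed `r`. -/
noncomputable def PsiS (ρ : Rk n) (c : Fin n → K) (r : Seed n) (k : ℕ) : Finset (Fin n) :=
  G ρ (Imp ρ c r.2.1) c r.2.2.1 r.2.2.2 (k + 2)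

/-- The accepted set for classes `c`, seed `r` and arrival list `l`. -/
noncomputable def accS (ρ : Rk n) (c : Fin n → K) (r : Seed n) (l : List (Fin n)) :
    Finset (Fin n) :=
  acc ρ (ElS ρ c r) (PsiS ρ c r) l

/-- The elements whose sample is used. -/
def IsSample (r : Seed n) (e : Fin n) : Prop := r.2.1 e = true ∨ r.2.2.1 e = true ∨ r.2.2.2 e = 0

/-- The class of a weight. -/
noncomputable def cls (x : ℝ) : K := if 0 < x then ((Int.log (2 ^ 37) x : ℤ) : K) else ⊥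

/-- The rounded weight of a class. -/
noncomputable def val (i : K) : ℝ := WithBot.recBotCoe 0 (fun j : ℤ => ((2 : ℝ) ^ 37) ^ j) i

/-- The classes of the mixed vector (samples on the sampled elements, values elsewhere). -/
noncomputable def cw (r : Seed n) (s v : Fin n → ℝ) : Fin n → K :=
  fun e => cls (if IsSample r e then s e else v e)

/-! ### The claims -/

/-- `S` is tight for the lower constraints. -/
def Tight (β : ℕ) (w : Fin n → ℕ) (cor : Finset (Fin n) → ℕ) (S : Finset (Fin n)) : Prop :=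
  1 ≤ cor S ∧ wt w S = β * cor S + 1

/-- Few elements are the intersection of two tight sets. -/
def SplitStmt : Prop :=
  ∀ (n β : ℕ) (X : Finset (Fin n)) (w : Fin n → ℕ) (cor : Finset (Fin n) → ℕ), 2 ≤ β →
    (∀ x ∈ X, 1 ≤ w x) →
    (∀ S T, S ⊆ T → T ⊆ X → cor S ≤ cor T) →
    (∀ S T, S ⊆ X → T ⊆ X → cor S + cor T ≤ cor (S ∪ T) + cor (S ∩ T)) →
    (∀ S, S ⊆ X → 1 ≤ cor S → β * cor S + 1 ≤ wt w S) →
    β * (X.filter fun y => w y = 1 ∧ ∃ S T, S ⊆ X ∧ T ⊆ X ∧ Tight β w cor S ∧ Tight β w cor T ∧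
      S ∩ T = {y}).card ≤ wt w X

/-- Sparsification of one exit group. -/
def SparseStmt : Prop :=
  ∀ (n β : ℕ) (ρ : Rk n) (X D F : Finset (Fin n)), 2 ≤ β →
    (∀ A, A ⊆ X → A.card ≤ β * ρ.rel A D) →
    (∀ S, S ⊆ X → 1 ≤ ρ.rel X (X \ S ∪ (D ∪ F)) → β * ρ.rel X (X \ S ∪ (D ∪ F)) + 1 ≤ S.card) →
    ∃ w : Fin n → ℕ, (∀ a, w a ≠ 0 → a ∈ X) ∧ (∀ A, A ⊆ X → wt w A ≤ β * ρ.rel A D) ∧
      (∀ S, S ⊆ X → 1 ≤ ρ.rel X (X \ S ∪ (D ∪ F)) →
        β * ρ.rel X (X \ S ∪ (D ∪ F)) + 1 ≤ wt w S) ∧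
      β * (X.filter fun a => w a ≠ 0).card ≤ 3 * X.card

/-- The whole chain of density closures is reproduced by sparse bounded weights. -/
def CompressStmt : Prop :=
  ∀ (n β N : ℕ) (ρ : Rk n) (R : Finset (Fin n)) (F : ℕ → Finset (Fin n)), 2 ≤ β →
    (∀ k, F (k + 1) ⊆ F k) → F 0 = univ → F N = ∅ → ρ.r R = R.card →
    ∃ w : Fin n → ℕ, (∀ a, w a ≠ 0 → a ∈ R) ∧ (∀ a, w a ≤ β) ∧
      β * (R.filter fun a => w a ≠ 0).card ≤ 3 * R.card ∧
      ∀ k ≤ N, ρ.dens β w (F k) = ρ.dens β (ind R) (F k)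

/-- The rank lemma. -/
def RankStmt : Prop :=
  ∀ (n N : ℕ) (ρ : Rk n) (C J : Finset (Fin n)) (F : ℕ → Finset (Fin n)),
    J ⊆ C → ρ.r J = J.card → (∀ k, F (k + 1) ⊆ F k) → F 0 = univ → F N = ∅ →
    (1 / 256 : ℝ) * J.card / 28 - (1 / 256 : ℝ) ^ 2 * C.card ≤
      Ex q1 fun σ => ∑ k ∈ range N,
        (ρ.rel ((C.filter fun s => σ s = false) ∩
            ρ.dens 12 (ind (ρ.basis (C.filter fun s => σ s = true))) (F k))
          (ρ.dens 12 (ind (ρ.basis (C.filter fun s => σ s = true))) (F (k + 1))) : ℝ)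

/-- The single-level inequality. -/
def SLIStmt : Prop :=
  ∀ (n : ℕ) (S B : Finset (Fin n)) (key : Fin n → K)
    (old : Fin n → (Fin n → Fin 3) → Prop) (f : Finset (Fin n) → Prop),
    (∀ A A', A ⊆ A' → f A → f A') →
    (∀ s ∈ S, ∀ t, key s ≤ key t → ∀ η x, old s (Function.update η t x) ↔ old s η) →
    (Ex q2 fun η =>
      (1 / 2 : ℝ) * (if ¬ f (B ∪ S.filter fun s => η s = 0) ∧
          f (B ∪ S.filter fun s => (old s η ∧ η s = 0) ∨ (¬ old s η ∧ η s = 1)) then 1 else 0) -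
      (1 / 2 ^ 17 : ℝ) * (if f (B ∪ S.filter fun s => η s = 0) ∧
          ¬ f (B ∪ S.filter fun s => (old s η ∧ η s = 0) ∨ (¬ old s η ∧ η s = 1)) then 1 else 0))
      ≤ 0

/-- The greedy facts. -/
def AccStmt : Prop :=
  ∀ (n : ℕ) (ρ : Rk n) (El Ψ : ℕ → Finset (Fin n)) (l : List (Fin n)),
    (∀ j k, j ≠ k → Disjoint (El j) (El k)) →
    (∀ e ∈ acc ρ El Ψ l, ∃ k, e ∈ El k) ∧
    (∀ k, ρ.rel (acc ρ El Ψ l ∩ El k) (Ψ k) = (acc ρ El Ψ l ∩ El k).card) ∧
    ∀ k, ∀ e ∈ l, e ∈ El k → e ∈ ρ.cl (acc ρ El Ψ l ∩ El k ∪ Ψ k)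

/-- Feasibility and the deterministic lower bound. -/
def DetStmt : Prop :=
  ∀ (n : ℕ) (ρ : Rk n) (c : Fin n → K) (r : Seed n) (l : List (Fin n)),
    ρ.r (accS ρ c r l) = (accS ρ c r l).card ∧
    ((∀ e, e ∈ l) → ∀ i : K,
      ∑ k ∈ (range (n + 1)).filter (fun k => k % 3 = r.1.val),
          gain ρ (Imp ρ c r.2.1) c r.2.2.1 r.2.2.2 i k ≤
        ((accS ρ c r l).filter fun s => c s = i).card + 2 * ρ.r (univ.filter fun s => i < c s))

/-- The expectation over the labels `P / U / O`. -/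
def GainStmt : Prop :=
  ∀ (n : ℕ) (ρ : Rk n) (E : Finset (Fin n)) (c : Fin n → K) (σ1 : Fin n → Bool) (i : K),
    (1 / 2 ^ 17 : ℝ) * ((Ex q2 fun ℓ => ∑ k ∈ range (n + 1), (exitRk ρ E c σ1 ℓ i k : ℝ)) -
        (1 / 2 ^ 16 : ℝ) * ρ.r (E.filter fun s => c s = i)) ≤
      Ex q2 fun ℓ => ∑ k ∈ range (n + 1), (gain ρ E c σ1 ℓ i k : ℝ)

/-- The expected gain of one class. -/
def CoreStmt : Prop :=
  ∀ (n : ℕ) (ρ : Rk n) (c : Fin n → K) (i : K),
    3 * ((1 / 2 ^ 35 : ℝ) * ρ.r (univ.filter fun s => i ≤ c s) -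
        ρ.r (univ.filter fun s => i < c s)) ≤
      Ex q0 fun σ0 => Ex q1 fun σ1 => Ex q2 fun ℓ =>
        ∑ k ∈ range (n + 1), (gain ρ (Imp ρ c σ0) c σ1 ℓ i k : ℝ)

/-- The rounded instance: constant-competitive against every seed-dependent order. -/
def ValueStmt : Prop :=
  ∀ (n : ℕ) (ρ : Rk n) (c : Fin n → K) (ord : Seed n → Equiv.Perm (Fin n)) (I : Finset (Fin n)),
    ρ.r I = I.card →
    (1 / 2 ^ 37 : ℝ) * ∑ e ∈ I, val (c e) ≤
      ∑ r : Seed n, sw r * ∑ e ∈ accS ρ c r (List.ofFn (ord r)), val (c e)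

/-- The rule can be run online from the samples. -/
def RuleStmt : Prop :=
  ∀ (n : ℕ) (ρ : Rk n), ∃ R : Crest.OnlineMatroid.SampleRule (Seed n) n,
    ∀ (r : Seed n) (s v : Fin n → ℝ) (l : List (Fin n)),
      Crest.OnlineMatroid.sAccepted R r s v l = accS ρ (cw r s v) r l

end Crest.Agent.R305
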