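import Crest.Agent.R305.Defs

/-!
# Row 305: the density closure
-/

set_option autoImplicit false

namespace Crest.Agent.R305

open Finset
open scoped Classical

variable {n : ℕ}

theorem wt_empty (w : Fin n → ℕ) : wt w ∅ = 0 := by simp [wt]

theorem wt_mono (w : Fin n → ℕ) {A B : Finset (Fin n)} (h : A ⊆ B) : wt w A ≤ wt w B :=
  sum_le_sum_of_subset h

theorem wt_union_inter (w : Fin n → ℕ) (A B : Finset (Fin n)) :
    wt w (A ∪ B) + wt w (A ∩ B) = wt w A + wt w B := sum_union_inter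

theorem wt_sdiff_add_inter (w : Fin n → ℕ) (A B : Finset (Fin n)) :
    wt w (A \ B) + wt w (A ∩ B) = wt w A := by
  unfold wt
  rw [← sum_union (disjoint_sdiff_inter A B), sdiff_union_inter]

theorem wt_ind (R A : Finset (Fin n)) : wt (ind R) A = (A ∩ R).card := by
  unfold wt ind
  rw [sum_boole, filter_mem_eq_inter]; simp

theorem wt_filter_ne (w : Fin n → ℕ) (A : Finset (Fin n)) :
    wt w (A.filter fun a => w a ≠ 0) = wt w A := sum_filter_ne_zero A

namespace Rk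

variable (ρ : Rk n) (β : ℕ) (w : Fin n → ℕ)

theorem phi_supermod (F A B : Finset (Fin n)) :
    ρ.phi β w F A + ρ.phi β w F B ≤ ρ.phi β w F (A ∪ B) + ρ.phi β w F (A ∩ B) := by
  have h1 := wt_union_inter w A B
  have h2 := ρ.submod (A ∪ F) (B ∪ F)
  have e1 : A ∪ F ∪ (B ∪ F) = A ∪ B ∪ F := by ext x; simp; tauto
  have e2 : (A ∪ F) ∩ (B ∪ F) = A ∩ B ∪ F := by ext x; simp; tauto
  rw [e1, e2] at h2
  unfold phi
  have h3 : (β : ℤ) * (ρ.r (A ∪ B ∪ F) + ρ.r (A ∩ B ∪ F)) ≤ β * (ρ.r (A ∪ F) + ρ.r (B ∪ F)) :=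
    mul_le_mul_of_nonneg_left (by exact_mod_cast h2) (by positivity)
  have h4 : (wt w (A ∪ B) : ℤ) + wt w (A ∩ B) = wt w A + wt w B := by exact_mod_cast h1
  linarith

theorem core_subset {F A : Finset (Fin n)} (hA : ∀ B, ρ.phi β w F B ≤ ρ.phi β w F A) :
    ρ.core β w F ⊆ A := fun _ ha => (mem_filter.1 ha).2 A hA

theorem core_max (F B : Finset (Fin n)) : ρ.phi β w F B ≤ ρ.phi β w F (ρ.core β w F) := by
  obtain ⟨A0, -, hA0⟩ := exists_max_image (univ : Finset (Finset (Fin n))) (ρ.phi β w F)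
    univ_nonempty
  obtain ⟨A, hA, hmin⟩ := exists_min_image
    (univ.filter fun A : Finset (Fin n) => ∀ B, ρ.phi β w F B ≤ ρ.phi β w F A) card
    ⟨A0, by simpa using hA0⟩
  have hA' := (mem_filter.1 hA).2
  have : ρ.core β w F = A := by
    refine Subset.antisymm (ρ.core_subset β w hA') fun a ha => mem_filter.2 ⟨mem_univ _, ?_⟩
    intro A' hA''
    have h1 := ρ.phi_supermod β w F A A'
    have h2 : ∀ B, ρ.phi β w F B ≤ ρ.phi β w F (A ∩ A') := fun B => by
      have := hA' (A ∪ A'); have := hA'' B; linarith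
    have h3 := hmin (A ∩ A') (mem_filter.2 ⟨mem_univ _, h2⟩)
    have h4 : A ∩ A' = A := eq_of_subset_of_card_le inter_subset_left h3
    rw [← h4] at ha
    exact (mem_inter.1 ha).2
  rw [this]; exact hA' B

theorem core_ne_zero {F : Finset (Fin n)} {a : Fin n} (ha : a ∈ ρ.core β w F) : w a ≠ 0 := by
  intro h0
  have h1 : ∀ B, ρ.phi β w F B ≤ ρ.phi β w F ((ρ.core β w F).erase a) := fun B => by
    refine (ρ.core_max β w F B).trans ?_
    have e : wt w ((ρ.core β w F).erase a) = wt w (ρ.core β w F) := sum_erase _ h0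
    have h2 : ρ.r ((ρ.core β w F).erase a ∪ F) ≤ ρ.r (ρ.core β w F ∪ F) :=
      ρ.mono (union_subset_union (erase_subset _ _) (Subset.refl _))
    have h3 : (β : ℤ) * ρ.r ((ρ.core β w F).erase a ∪ F) ≤ β * ρ.r (ρ.core β w F ∪ F) :=
      mul_le_mul_of_nonneg_left (by exact_mod_cast h2) (by positivity)
    unfold phi; rw [e]; linarith
  exact notMem_erase a _ (ρ.core_subset β w h1 ha)

theorem core_mono {F F' : Finset (Fin n)} (h : F ⊆ ρ.cl F') : ρ.core β w F ⊆ ρ.core β w F' := by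
  set A := ρ.core β w F
  set A' := ρ.core β w F'
  have h1 := ρ.phi_supermod β w F' A A'
  have h2 := ρ.core_max β w F' (A ∪ A')
  have h3 := ρ.conn_mono (inter_subset_left : A ∩ A' ⊆ A) h
  have e1 := ρ.rel_add (A ∩ A') F
  have e2 := ρ.rel_add A F'
  have e3 := ρ.rel_add A F
  have e4 := ρ.rel_add (A ∩ A') F'
  have h4 : ρ.r (A ∩ A' ∪ F) + ρ.r (A ∪ F') ≤ ρ.r (A ∪ F) + ρ.r (A ∩ A' ∪ F') := by omega
  have h5 : (β : ℤ) * (ρ.r (A ∩ A' ∪ F) + ρ.r (A ∪ F')) ≤
      β * (ρ.r (A ∪ F) + ρ.r (A ∩ A' ∪ F')) :=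
    mul_le_mul_of_nonneg_left (by exact_mod_cast h4) (by positivity)
  have h6 : ∀ B, ρ.phi β w F B ≤ ρ.phi β w F (A ∩ A') := fun B => by
    have h7 := ρ.core_max β w F B
    have h8 : ρ.phi β w F' A ≤ ρ.phi β w F' (A ∩ A') := by linarith
    have h9 : ρ.phi β w F A ≤ ρ.phi β w F (A ∩ A') := by
      unfold phi at h8 ⊢; linarith
    exact h7.trans h9
  exact (ρ.core_subset β w h6).trans inter_subset_right

theorem subset_dens (F : Finset (Fin n)) : F ⊆ ρ.dens β w F :=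
  subset_union_right.trans (ρ.subset_cl _)

theorem cl_dens (F : Finset (Fin n)) : ρ.cl (ρ.dens β w F) = ρ.dens β w F := ρ.cl_cl _

theorem cl_subset_dens (F : Finset (Fin n)) : ρ.cl F ⊆ ρ.dens β w F :=
  ρ.cl_mono subset_union_right

theorem dens_univ : ρ.dens β w univ = univ :=
  Subset.antisymm (subset_univ _) (ρ.subset_dens β w _)

/-- The density closure is monotone. -/
theorem dens_mono {F F' : Finset (Fin n)} (h : F ⊆ ρ.cl F') : ρ.dens β w F ⊆ ρ.dens β w F' :=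
  ρ.cl_subset_cl (ρ.union_subset_cl ((ρ.core_mono β w h).trans (ρ.subset_cl _)) h)

theorem dens_mono' {F F' : Finset (Fin n)} (h : F ⊆ F') : ρ.dens β w F ⊆ ρ.dens β w F' :=
  ρ.dens_mono β w (h.trans (ρ.subset_cl _))

theorem dens_congr {F F' : Finset (Fin n)} (h : ρ.cl F = ρ.cl F') :
    ρ.dens β w F = ρ.dens β w F' :=
  Subset.antisymm (ρ.dens_mono β w (h ▸ ρ.subset_cl F)) (ρ.dens_mono β w (h ▸ ρ.subset_cl F'))

/-- The density closure is spanned by `F` and its elements of positive weight. -/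
theorem dens_span (F : Finset (Fin n)) :
    ρ.dens β w F ⊆ ρ.cl (((ρ.dens β w F).filter fun a => w a ≠ 0) ∪ F) :=
  ρ.cl_mono (union_subset_union (fun _ ha => mem_filter.2
    ⟨ρ.subset_cl _ (mem_union_left _ ha), ρ.core_ne_zero β w ha⟩) (Subset.refl _))

/-- Upper constraints. -/
theorem dens_upper (F A : Finset (Fin n)) :
    wt w (A \ ρ.dens β w F) ≤ β * ρ.rel A (ρ.dens β w F) := by
  set C := ρ.core β w F
  have h1 := ρ.core_max β w F (A \ ρ.dens β w F ∪ C)
  have hd : Disjoint (A \ ρ.dens β w F) C :=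
    disjoint_sdiff_self_left.mono_right (subset_union_left.trans (ρ.subset_cl _))
  have e1 : wt w (A \ ρ.dens β w F ∪ C) = wt w (A \ ρ.dens β w F) + wt w C := sum_union hd
  have e2 := ρ.rel_add (A \ ρ.dens β w F) (C ∪ F)
  have e3 : ρ.rel A (ρ.dens β w F) = ρ.rel A (C ∪ F) := ρ.rel_cl_right _ _
  have h2 : ρ.rel (A \ ρ.dens β w F) (C ∪ F) ≤ ρ.rel A (C ∪ F) :=
    ρ.rel_mono_left' _ sdiff_subset
  unfold phi at h1
  rw [e1, union_assoc, ← e2] at h1
  rw [e3]
  have h3 : (β : ℤ) * ρ.rel (A \ ρ.dens β w F) (C ∪ F) ≤ β * ρ.rel A (C ∪ F) :=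
    mul_le_mul_of_nonneg_left (by exact_mod_cast h2) (by positivity)
  have h4 : (wt w (A \ ρ.dens β w F) : ℤ) ≤ β * ρ.rel A (C ∪ F) := by
    push_cast at h1; linarith
  exact_mod_cast h4

/-- Lower constraints. -/
theorem dens_lower {F A : Finset (Fin n)} (hF : F ⊆ ρ.cl A) (h : 1 ≤ ρ.rel (ρ.dens β w F) A) :
    β * ρ.rel (ρ.dens β w F) A + 1 ≤ wt w (ρ.dens β w F \ A) := by
  set C := ρ.core β w F
  have e1 : ρ.rel (ρ.dens β w F) A ≤ ρ.rel C A :=
    ρ.rel_mono_left (ρ.cl_subset_cl (ρ.union_subset_cl (ρ.subset_cl C) hF))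
  have e2 : ρ.rel C A ≤ ρ.rel C (C ∩ A ∪ F) :=
    ρ.rel_anti_right C (union_subset (inter_subset_right.trans (ρ.subset_cl A)) hF)
  have hne : ¬ ∀ B, ρ.phi β w F B ≤ ρ.phi β w F (C ∩ A) := fun h' => by
    have h1 : C ⊆ A := (ρ.core_subset β w h').trans inter_subset_right
    have h2 : ρ.rel C A = 0 := ρ.rel_eq_zero.2 (h1.trans (ρ.subset_cl _))
    omega
  push Not at hne
  obtain ⟨B, hB⟩ := hne
  have h1 := lt_of_lt_of_le hB (ρ.core_max β w F B)
  have e3 := ρ.rel_add C (C ∩ A ∪ F)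
  rw [← union_assoc, union_eq_left.2 (inter_subset_left : C ∩ A ⊆ C)] at e3
  have e4 := wt_sdiff_add_inter w C A
  have e5 : wt w (C \ A) ≤ wt w (ρ.dens β w F \ A) :=
    wt_mono w (sdiff_subset_sdiff (subset_union_left.trans (ρ.subset_cl _)) (Subset.refl _))
  unfold phi at h1
  rw [← e3, ← e4] at h1
  have h3 : (β : ℤ) * ρ.rel (ρ.dens β w F) A ≤ β * ρ.rel C (C ∩ A ∪ F) :=
    mul_le_mul_of_nonneg_left (by exact_mod_cast e1.trans e2) (by positivity)
  have h4 : (β : ℤ) * ρ.rel (ρ.dens β w F) A + 1 ≤ wt w (C \ A) := by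
    push_cast at h1; linarith
  have h5 : β * ρ.rel (ρ.dens β w F) A + 1 ≤ wt w (C \ A) := by exact_mod_cast h4
  omega

/-- The upper and lower constraints characterise the density closure. -/
theorem dens_eq {F D : Finset (Fin n)} (hD : ρ.cl D = D) (hF : F ⊆ D)
    (hU : ∀ A, wt w (A \ D) ≤ β * ρ.rel A D)
    (hL : ∀ A, F ⊆ A → 1 ≤ ρ.rel D A → β * ρ.rel D A + 1 ≤ wt w (D \ A)) :
    ρ.dens β w F = D := by
  have key : ∀ A, ρ.phi β w F A + (if 1 ≤ ρ.rel D (A ∪ F) then 1 else 0) ≤ ρ.phi β w F D := by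
    intro A
    have h1 := hU A
    have h2 : β * ρ.rel D (A ∪ F) + (if 1 ≤ ρ.rel D (A ∪ F) then 1 else 0) ≤ wt w (D \ A) := by
      split_ifs with h
      · exact (hL _ subset_union_right h).trans
          (wt_mono w (sdiff_subset_sdiff (Subset.refl _) subset_union_left))
      · have : ρ.rel D (A ∪ F) = 0 := by omega
        simp [this]
    have e1 := wt_sdiff_add_inter w A D
    have e2 := wt_sdiff_add_inter w D A
    rw [inter_comm] at e2
    have e3 := ρ.rel_add D (A ∪ F)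
    have e4 := ρ.rel_add A D
    have e5 : D ∪ (A ∪ F) = A ∪ D := by
      rw [union_comm A F, ← union_assoc, union_eq_left.2 hF, union_comm]
    rw [e5] at e3
    have e6 : ρ.rel D (A ∪ F) + ρ.r (A ∪ F) = ρ.rel A D + ρ.r D := by omega
    have e7 : (β : ℤ) * (ρ.rel D (A ∪ F) + ρ.r (A ∪ F)) = β * (ρ.rel A D + ρ.r D) := by
      exact_mod_cast congrArg (β * ·) e6
    unfold phi
    rw [union_eq_left.2 hF, ← e1, ← e2]
    have h1' : (wt w (A \ D) : ℤ) ≤ β * ρ.rel A D := by exact_mod_cast h1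
    have h2' : (β : ℤ) * ρ.rel D (A ∪ F) + (if 1 ≤ ρ.rel D (A ∪ F) then 1 else 0) ≤
        wt w (D \ A) := by exact_mod_cast h2
    push_cast; linarith
  have hmax : ∀ B, ρ.phi β w F B ≤ ρ.phi β w F D := fun B => by
    have := key B; split_ifs at this <;> linarith
  refine Subset.antisymm ?_ ?_
  · rw [← hD]
    exact ρ.cl_mono (union_subset (ρ.core_subset β w hmax) hF)
  · have h1 := key (ρ.core β w F)
    have h2 := ρ.core_max β w F D
    split_ifs at h1 with h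
    · linarith
    · exact ρ.rel_eq_zero.1 (by omega)

/-- For the indicator of an independent set nothing is dense over `∅`. -/
theorem dens_empty {R : Finset (Fin n)} (hβ : 1 ≤ β) (hR : ρ.r R = R.card) :
    ρ.dens β (ind R) ∅ = ρ.cl ∅ := by
  refine ρ.dens_eq β _ (ρ.cl_cl _) (empty_subset _) (fun A => ?_) fun A _ h => ?_
  · rw [wt_ind, rel_cl_right, rel_empty_right]
    have h1 : ρ.rel ((A \ ρ.cl ∅) ∩ R) ∅ = ((A \ ρ.cl ∅) ∩ R).card :=
      ρ.rel_eq_card_of_subset (by rw [rel_empty_right, hR]) inter_subset_right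
    rw [rel_empty_right] at h1
    have h2 : ρ.r ((A \ ρ.cl ∅) ∩ R) ≤ ρ.r A := ρ.mono (inter_subset_left.trans sdiff_subset)
    nlinarith
  · have : ρ.rel (ρ.cl ∅) A = 0 := ρ.rel_eq_zero.2 (ρ.cl_mono (empty_subset _))
    omega

end Rk

end Crest.Agent.R305
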