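import Crest.Agent.R305.Struct

/-!
# Row 305: feasibility and the deterministic lower bound
-/

set_option autoImplicit false

namespace Crest.Agent.R305

open Finset
open scoped Classical

variable {n : ℕ}

/-- Layers independent modulo a decreasing chain of flats are jointly independent. -/
theorem Det.layers (ρ : Rk n) (A Ψ : ℕ → Finset (Fin n))
    (hd : ∀ p q, p ≠ q → Disjoint (A p) (A q)) (h1 : ∀ q, ρ.rel (A q) (Ψ q) = (A q).card)
    (h2 : ∀ q, A (q + 1) ∪ Ψ (q + 1) ⊆ ρ.cl (Ψ q)) (q : ℕ) :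
    ρ.rel ((range (q + 1)).biUnion A) (Ψ q) = ((range (q + 1)).biUnion A).card := by
  induction q with
  | zero => simpa using h1 0
  | succ q ih =>
    have hdis : Disjoint ((range (q + 1)).biUnion A) (A (q + 1)) :=
      (disjoint_biUnion_left _ _ _).2 fun p hp => hd _ _ (mem_range.1 hp).ne
    rw [range_add_one (n := q + 1), biUnion_insert, union_comm, card_union_of_disjoint hdis,
      ρ.rel_chain, h1]
    have h3 := ρ.rel_anti_right ((range (q + 1)).biUnion A) (h2 q)
    have h4 := ρ.rel_le_card ((range (q + 1)).biUnion A) (A (q + 1) ∪ Ψ (q + 1))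
    omega

theorem Det.telescope (g a u : ℕ → ℕ) (h : ∀ q, g q + u q ≤ a q + u (q + 1)) (N : ℕ) :
    ∑ q ∈ range N, g q + u 0 ≤ ∑ q ∈ range N, a q + u N := by
  induction N with
  | zero => simp
  | succ N ih =>
    rw [sum_range_succ, sum_range_succ]
    have := h N
    omega

/-- The gain at one level. -/
theorem Det.level (ρ : Rk n) (E : Finset (Fin n)) (c : Fin n → K) (σ1 : Fin n → Bool)
    (ℓ : Fin n → Fin 3) (i : K) (k : ℕ) {A : Finset (Fin n)} (hA : A ⊆ Elig ρ E c σ1 ℓ k)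
    (hs : Elig ρ E c σ1 ℓ k ⊆ ρ.cl (A ∪ G ρ E c σ1 ℓ (k + 2))) :
    gain ρ E c σ1 ℓ i k + ρ.rel (univ.filter fun s => i < c s) (Dp ρ E c σ1 ℓ i k) ≤
      (A.filter fun s => c s = i).card +
        ρ.rel (univ.filter fun s => i < c s) (Dp ρ E c σ1 ℓ i (k + 2)) := by
  have h1 := ρ.loss_le (X := (Elig ρ E c σ1 ℓ k).filter fun s => c s = i)
    (Y := Dop ρ E c σ1 i (Xi ρ E c σ1 ℓ i k)) (Z := univ.filter fun s => i < c s)
    (Lo := Dp ρ E c σ1 ℓ i (k + 2)) (Up := Dp ρ E c σ1 ℓ i k)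
    ((Dp_subset_Dop_Xi ρ E c σ1 ℓ i k).trans (ρ.subset_cl _))
    ((union_subset (fun s hs => by
      obtain ⟨h1, h2⟩ := mem_filter.1 hs
      rw [← h2]
      exact ((mem_H ρ E c σ1 ℓ).1 ((mem_Elig ρ E c σ1 ℓ).1 h1).1).2.2)
      (Dop_Xi_subset_Dp ρ E c σ1 ℓ i k)).trans (ρ.subset_cl _))
  have h2 : (Elig ρ E c σ1 ℓ k).filter (fun s => c s = i) ⊆
      ρ.cl ((A.filter fun s => c s = i) ∪
        ((univ.filter fun s => i < c s) ∪ Dop ρ E c σ1 i (Xi ρ E c σ1 ℓ i k))) := by
    refine (filter_subset _ _).trans (hs.trans (ρ.cl_mono fun s hs => ?_))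
    rcases lt_trichotomy (c s) i with hc | hc | hc
    · refine mem_union_right _ (mem_union_right _ (subset_Dop ρ E c σ1 i _ ?_))
      rcases mem_union.1 hs with hs | hs
      · exact (mem_Xi ρ E c σ1 ℓ).2 ⟨Or.inr (Or.inr (hA hs)), hc⟩
      · exact Fp_subset_Xi ρ E c σ1 ℓ i k (mem_filter.2 ⟨G_succ_subset ρ E c σ1 ℓ _ hs, hc⟩)
    · rcases mem_union.1 hs with hs | hs
      · exact mem_union_left _ (mem_filter.2 ⟨hs, hc⟩)
      · refine mem_union_right _ (mem_union_right _ (Dp_subset_Dop_Xi ρ E c σ1 ℓ i k ?_))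
        rw [← hc]
        exact ((mem_G ρ E c σ1 ℓ).1 hs).2
    · exact mem_union_right _ (mem_union_left _ (mem_filter.2 ⟨mem_univ _, hc⟩))
  have h3 := (ρ.rel_mono_left h2).trans (ρ.rel_le_card _ _)
  unfold gain
  omega

theorem det (h : AccStmt) : DetStmt := by
  intro n ρ c r l
  have ha : r.1.val < 3 := r.1.isLt
  have hEl : ∀ q, ElS ρ c r (3 * q + r.1.val) =
      Elig ρ (Imp ρ c r.2.1) c r.2.2.1 r.2.2.2 (3 * q + r.1.val) := fun q => if_pos (by omega)
  have hd : ∀ j k, j ≠ k → Disjoint (ElS ρ c r j) (ElS ρ c r k) := fun j k hjk => by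
    unfold ElS
    split_ifs
    · exact Elig_disjoint _ _ _ _ _ hjk
    all_goals simp
  obtain ⟨h1, h2, h3⟩ := h n ρ (ElS ρ c r) (PsiS ρ c r) l hd
  change ∀ e ∈ accS ρ c r l, _ at h1
  change ∀ k, ρ.rel (accS ρ c r l ∩ _) _ = (accS ρ c r l ∩ _).card at h2
  change ∀ k, ∀ e ∈ l, _ → e ∈ ρ.cl (accS ρ c r l ∩ _ ∪ _) at h3
  generalize accS ρ c r l = A at h1 h2 h3 ⊢
  have hdA : ∀ p q, p ≠ q → Disjoint (A ∩ ElS ρ c r (3 * p + r.1.val))
      (A ∩ ElS ρ c r (3 * q + r.1.val)) := fun p q hpq =>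
    (hd _ _ (by omega)).mono inter_subset_right inter_subset_right
  refine ⟨?_, fun hl i => ?_⟩
  · have key := Det.layers ρ (fun q => A ∩ ElS ρ c r (3 * q + r.1.val))
      (fun q => PsiS ρ c r (3 * q + r.1.val)) hdA (fun q => h2 _) fun q => by
        refine union_subset (fun s hs => ?_)
          ((G_anti _ _ _ _ _ (by omega)).trans (ρ.subset_cl _))
        have h4 := (mem_inter.1 hs).2
        rw [hEl, show 3 * (q + 1) + r.1.val = 3 * q + r.1.val + 2 + 1 by omega] at h4
        exact H_span _ _ _ _ _ _ ((mem_Elig _ _ _ _ _).1 h4).1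
    choose! f hf using h1
    have e : (range (A.sup f + 1)).biUnion (fun q => A ∩ ElS ρ c r (3 * q + r.1.val)) = A := by
      refine Subset.antisymm (biUnion_subset.2 fun q _ => inter_subset_left) fun s hs => ?_
      have h4 := hf s hs
      have h5 : f s % 3 = r.1.val := by
        by_contra h5
        rw [ElS, if_neg h5] at h4
        exact notMem_empty _ h4
      have h6 : f s ≤ A.sup f := le_sup hs
      refine mem_biUnion.2 ⟨f s / 3, mem_range.2 (by omega), mem_inter.2 ⟨hs, ?_⟩⟩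
      rwa [show 3 * (f s / 3) + r.1.val = f s by omega]
    have h4 := key (A.sup f)
    rw [e] at h4
    have h5 := ρ.rel_le_r A (PsiS ρ c r (3 * A.sup f + r.1.val))
    have h6 := ρ.le_card A
    omega
  · have hsub : (range (n + 1)).filter (fun k => k % 3 = r.1.val) ⊆
        (range (n + 1)).image fun q => 3 * q + r.1.val := fun k hk => by
      obtain ⟨h4, h5⟩ := mem_filter.1 hk
      rw [mem_range] at h4
      exact mem_image.2 ⟨k / 3, mem_range.2 (by omega), by omega⟩
    refine (sum_le_sum_of_subset hsub).trans ?_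
    rw [sum_image fun p _ q _ hpq => by simpa using hpq]
    have key := Det.telescope
      (fun q => gain ρ (Imp ρ c r.2.1) c r.2.2.1 r.2.2.2 i (3 * q + r.1.val))
      (fun q => ((A ∩ ElS ρ c r (3 * q + r.1.val)).filter fun s => c s = i).card)
      (fun q => ρ.rel (univ.filter fun s => i < c s)
        (Dp ρ (Imp ρ c r.2.1) c r.2.2.1 r.2.2.2 i (3 * q + r.1.val)))
      (fun q => by
        refine (Det.level ρ _ c _ _ i _ (A := A ∩ ElS ρ c r (3 * q + r.1.val))
          (inter_subset_right.trans (hEl q).subset) fun s hs =>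
            h3 _ s (hl s) ((hEl q).symm.subset hs)).trans (Nat.add_le_add_left ?_ _)
        exact ρ.rel_anti_right' _ (Dp_anti _ _ _ _ _ _ (by omega))) (n + 1)
    have h4 : ∑ q ∈ range (n + 1),
        ((A ∩ ElS ρ c r (3 * q + r.1.val)).filter fun s => c s = i).card ≤
        (A.filter fun s => c s = i).card := by
      rw [← card_biUnion fun p _ q _ hpq =>
        (hdA p q hpq).mono (filter_subset _ _) (filter_subset _ _)]
      exact card_le_card (biUnion_subset.2 fun q _ => filter_subset_filter _ inter_subset_left)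
    have h5 := ρ.rel_le_r (univ.filter fun s => i < c s)
      (Dp ρ (Imp ρ c r.2.1) c r.2.2.1 r.2.2.2 i (3 * (n + 1) + r.1.val))
    omega

end Crest.Agent.R305
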