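import Crest.Agent.R305.Prob
import Crest.Prelude.Def_SampleRule

/-!
# Row 305: the measure-theoretic wrapper
-/

set_option autoImplicit false

universe u

namespace Crest.Agent.R305

open Finset MeasureTheory
open Crest.OnlineMatroid
open scoped Classical

variable {n : ℕ}

theorem final_coe_rk (M : Matroid (Fin n)) (A : Finset (Fin n)) :
    (((M.eRk (A : Set (Fin n))).toNat : ℕ) : ℕ∞) = M.eRk (A : Set (Fin n)) :=
  ENat.natCast_toNat (ne_top_of_le_ne_top (by simp) (M.eRk_le_encard _))

/-- The rank function of a matroid. -/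
noncomputable def finRk (M : Matroid (Fin n)) : Rk n where
  r A := (M.eRk (A : Set (Fin n))).toNat
  empty := by simp
  mono {A B} h := by
    have := M.eRk_mono (Finset.coe_subset.2 h)
    rw [← final_coe_rk M A, ← final_coe_rk M B] at this
    exact_mod_cast this
  submod A B := by
    have := M.eRk_inter_add_eRk_union_le (A : Set (Fin n)) B
    rw [← Finset.coe_inter, ← Finset.coe_union, ← final_coe_rk, ← final_coe_rk M (A ∪ B),
      ← final_coe_rk M A, ← final_coe_rk M B, add_comm] at this
    exact_mod_cast this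
  single a := by
    have := M.eRk_singleton_le a
    rw [← Finset.coe_singleton, ← final_coe_rk] at this
    exact_mod_cast this

theorem finRk_indep (M : Matroid (Fin n)) (A : Finset (Fin n)) :
    M.Indep (A : Set (Fin n)) ↔ (finRk M).r A = A.card := by
  rw [Matroid.indep_iff_eRk_eq_encard_of_finite A.finite_toSet, ← final_coe_rk,
    Set.encard_coe_eq_coe_finsetCard]
  exact Nat.cast_inj

theorem final_sw_nonneg (r : Seed n) : 0 ≤ sw r := by
  unfold sw
  exact mul_nonneg (mul_nonneg (mul_nonneg (by norm_num) (prod_nonneg fun _ _ => q0_nonneg _))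
    (prod_nonneg fun _ _ => q1_nonneg _)) (prod_nonneg fun _ _ => q2_nonneg _)

theorem final_sum_prod {L : Type} [Fintype L] {q : L → ℝ} (hq : ∑ x, q x = 1) :
    ∑ ω : Fin n → L, ∏ a, q (ω a) = 1 := by
  have h := Ex_const (n := n) hq 1
  simpa only [Ex, mul_one] using h

theorem final_sw_sum : ∑ r : Seed n, sw r = 1 := by
  simp only [sw, Fintype.sum_prod_type]
  simp only [← mul_sum, final_sum_prod q2_sum, mul_one]
  simp only [← mul_sum, final_sum_prod q1_sum, mul_one]
  simp only [← mul_sum (s := (univ : Finset (Fin n → Bool))), final_sum_prod (n := n) q0_sum]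
  simp

theorem final_acc_mem (ρ : Rk n) (El Ψ : ℕ → Finset (Fin n)) (l : List (Fin n)) :
    ∀ e ∈ acc ρ El Ψ l, ∃ k, e ∈ El k := by
  induction l using List.reverseRecOn with
  | nil => exact fun e he => absurd he (notMem_empty e)
  | append_singleton l a ih =>
    intro e he
    simp only [acc, List.foldl_append, List.foldl_cons, List.foldl_nil] at he
    unfold step at he
    split_ifs at he with h
    · rcases mem_insert.1 he with rfl | he
      · obtain ⟨k, hk, -⟩ := h
        exact ⟨k, hk⟩
      · exact ih e he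
    · exact ih e he

theorem final_not_sample (ρ : Rk n) (c : Fin n → K) (r : Seed n) (l : List (Fin n)) {e : Fin n}
    (he : e ∈ accS ρ c r l) : ¬ IsSample r e := by
  obtain ⟨k, hk⟩ := final_acc_mem ρ _ _ l e he
  unfold ElS at hk
  split_ifs at hk
  · unfold Elig at hk
    obtain ⟨h1, h2⟩ := mem_filter.1 hk
    have h3 := (mem_sdiff.1 h1).1
    unfold H at h3
    obtain ⟨h4, h5, -⟩ := mem_filter.1 h3
    unfold Imp at h4
    have h6 := (mem_filter.1 h4).2.1
    rintro (h | h | h)
    · rw [h6] at h; exact absurd h (by decide)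
    · rw [h5] at h; exact absurd h (by decide)
    · rw [h2] at h; exact absurd h (by decide)
  · exact absurd hk (notMem_empty e)

theorem final_val_le {x : ℝ} (hx : 0 ≤ x) : val (cls x) ≤ x := by
  unfold cls
  split_ifs with h
  · have := Int.zpow_log_le_self (b := 2 ^ 37) (by norm_num) h
    rw [Nat.cast_pow, Nat.cast_ofNat] at this
    exact this
  · exact hx

theorem final_le_val (x : ℝ) : x ≤ 2 ^ 37 * val (cls x) := by
  unfold cls
  split_ifs with h
  · have := (Int.lt_zpow_succ_log_self (b := 2 ^ 37) (by norm_num) x).le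
    rw [zpow_add_one₀ (by positivity), mul_comm, Nat.cast_pow, Nat.cast_ofNat] at this
    exact this
  · change x ≤ 2 ^ 37 * 0
    rw [mul_zero]
    exact not_lt.1 h

theorem final_val_nonneg (i : K) : 0 ≤ val i := by
  induction i using WithBot.recBotCoe with
  | bot => exact le_rfl
  | coe j =>
    change 0 ≤ ((2 : ℝ) ^ 37) ^ j
    positivity

theorem final_cls_mono : Monotone cls := by
  intro x y h
  unfold cls
  by_cases hx : 0 < x
  · rw [if_pos hx, if_pos (hx.trans_le h)]
    exact WithBot.coe_le_coe.2 (Int.log_mono_right hx h)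
  · rw [if_neg hx]
    exact bot_le

theorem final_measurable (f : (Fin n → K) → ENNReal) :
    Measurable fun x : Fin n → ℝ => f fun e => cls (x e) := by
  let _ : MeasurableSpace K := ⊤
  have : MeasurableSingletonClass K := ⟨fun _ => trivial⟩
  have : Countable K := inferInstanceAs (Countable (Option ℤ))
  have h1 : Measurable cls := measurable_to_countable' fun i =>
    (Set.ordConnected_singleton.preimage_mono final_cls_mono).measurableSet
  exact (measurable_of_countable f).comp
    (measurable_pi_lambda _ fun e => h1.comp (measurable_pi_apply e))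

/-- The worst rounded value. -/
noncomputable def finPsi (ρ : Rk n) (r : Seed n) (c : Fin n → K) : ENNReal :=
  ⨅ σ : Equiv.Perm (Fin n), ENNReal.ofReal (∑ e ∈ accS ρ c r (List.ofFn σ), val (c e))

theorem final_point (hV : ValueStmt) (M : Matroid (Fin n)) (v : Fin n → ℝ) :
    (2 : ENNReal)⁻¹ ^ 310 * optWeight M v ≤
      ∑ r : Seed n, ENNReal.ofReal (sw r) * finPsi (finRk M) r fun e => cls (v e) := by
  set c : Fin n → K := fun e => cls (v e) with hc
  have h1 : ∀ r : Seed n, ∃ σ : Equiv.Perm (Fin n),
      ENNReal.ofReal (∑ e ∈ accS (finRk M) c r (List.ofFn σ), val (c e)) =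
        finPsi (finRk M) r c := fun r => exists_eq_ciInf_of_finite
  choose ord hord using h1
  have h2 : ∑ r : Seed n, ENNReal.ofReal (sw r) * finPsi (finRk M) r c =
      ENNReal.ofReal (∑ r : Seed n, sw r *
        ∑ e ∈ accS (finRk M) c r (List.ofFn (ord r)), val (c e)) := by
    rw [ENNReal.ofReal_sum_of_nonneg fun r _ => mul_nonneg (final_sw_nonneg r)
      (sum_nonneg fun e _ => final_val_nonneg _)]
    refine sum_congr rfl fun r _ => ?_
    rw [ENNReal.ofReal_mul (final_sw_nonneg r), hord]
  rw [h2]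
  unfold optWeight
  simp only [ENNReal.mul_iSup]
  refine iSup₂_le fun I hI => ?_
  have h3 := hV n (finRk M) c ord I ((finRk_indep M I).1 hI)
  have h4 : ∑ e ∈ I, v e ≤ 2 ^ 37 * ∑ e ∈ I, val (c e) := by
    rw [mul_sum]
    exact sum_le_sum fun e _ => final_le_val _
  have h5 : 0 ≤ ∑ e ∈ I, val (c e) := sum_nonneg fun e _ => final_val_nonneg _
  have h6 : (2 : ENNReal)⁻¹ ^ 310 = ENNReal.ofReal ((2 : ℝ)⁻¹ ^ 310) := by
    rw [ENNReal.ofReal_pow (by norm_num), ENNReal.ofReal_inv_of_pos (by norm_num)]
    simp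
  rw [h6, ← ENNReal.ofReal_mul (by positivity)]
  refine ENNReal.ofReal_le_ofReal (le_trans ?_ h3)
  have h7 : (2 : ℝ)⁻¹ ^ 310 * 2 ^ 37 ≤ 1 / 2 ^ 37 := by
    have : (2 : ℝ)⁻¹ ^ 310 ≤ 2⁻¹ ^ 74 := pow_le_pow_of_le_one (by norm_num) (by norm_num)
      (by norm_num)
    refine (mul_le_mul_of_nonneg_right this (by positivity)).trans (le_of_eq ?_)
    norm_num
  calc (2 : ℝ)⁻¹ ^ 310 * ∑ e ∈ I, v e ≤ (2 : ℝ)⁻¹ ^ 310 * (2 ^ 37 * ∑ e ∈ I, val (c e)) :=
        mul_le_mul_of_nonneg_left h4 (by positivity)
    _ = (2 : ℝ)⁻¹ ^ 310 * 2 ^ 37 * ∑ e ∈ I, val (c e) := (mul_assoc _ _ _).symm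
    _ ≤ _ := mul_le_mul_of_nonneg_right h7 h5

theorem final_map_eq {Ω : Type u} [MeasurableSpace Ω] {P : Measure Ω} {S V : Ω → Fin n → ℝ}
    (hS : Measurable S) (hV : Measurable V)
    (hind : ProbabilityTheory.iIndepFun
      (fun (i : Fin n × Bool) (ω : Ω) => if i.2 = true then S ω i.1 else V ω i.1) P)
    (hid : ∀ e, P.map (fun ω => S ω e) = P.map (fun ω => V ω e)) (b : Fin n → Bool) :
    P.map (fun ω e => if b e = true then S ω e else V ω e) =
      Measure.pi fun e => P.map (fun ω => V ω e) := by
  have h1 := hind.precomp (g := fun e : Fin n => (e, b e)) fun _ _ h => congrArg Prod.fst h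
  have h2 := h1.map_fun_eq_pi_map fun e => by
    refine Measurable.aemeasurable ?_
    by_cases h : b e = true
    · simp only [h, if_true]
      exact (measurable_pi_apply e).comp hS
    · simp only [h, if_false, Bool.false_eq_true]
      exact (measurable_pi_apply e).comp hV
  refine h2.trans ?_
  congr 1
  funext e
  by_cases h : b e = true
  · simp only [h, if_true]
    exact hid e
  · simp only [h, if_false, Bool.false_eq_true]

theorem final (hD : DetStmt) (hV : ValueStmt) (hR : RuleStmt) (k : ℕ) (M : Matroid (Fin k)) :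
    ∃ (ΩR : Type) (_ : MeasurableSpace ΩR) (μR : MeasureTheory.Measure ΩR) (R : SampleRule ΩR k),
      MeasureTheory.IsProbabilityMeasure μR ∧
      (∀ (r : ΩR) (s v : Fin k → ℝ) (order : List (Fin k)),
        M.Indep (sAccepted R r s v order : Set (Fin k))) ∧
      ∀ (Ω : Type u) [MeasurableSpace Ω] (P : MeasureTheory.Measure Ω)
        [MeasureTheory.IsProbabilityMeasure P] (S V : Ω → Fin k → ℝ),
        Measurable S → Measurable V → (∀ ω e, 0 ≤ S ω e ∧ 0 ≤ V ω e) →
        ProbabilityTheory.iIndepFun
          (fun (i : Fin k × Bool) (ω : Ω) => if i.2 = true then S ω i.1 else V ω i.1) P →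
        (∀ e, P.map (fun ω => S ω e) = P.map (fun ω => V ω e)) →
        ∫⁻ ω, optWeight M (V ω) ∂P ≠ ⊤ →
        (2 : ENNReal)⁻¹ ^ 310 * ∫⁻ ω, optWeight M (V ω) ∂P ≤
          ∫⁻ p, ⨅ σ : Equiv.Perm (Fin k),
            ENNReal.ofReal (∑ e ∈ sAccepted R p.1 (S p.2) (V p.2) (List.ofFn σ), V p.2 e)
            ∂(μR.prod P) := by
  obtain ⟨R, hR⟩ := hR k (finRk M)
  let _ : MeasurableSpace (Seed k) := ⊤
  have : MeasurableSingletonClass (Seed k) := ⟨fun _ => trivial⟩
  refine ⟨Seed k, ⊤, ∑ r : Seed k, ENNReal.ofReal (sw r) • Measure.dirac r, R, ⟨?_⟩,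
    fun r s v l => ?_, fun Ω _ P _ S V hS hV' h0 hind hid _ => ?_⟩
  · rw [Measure.finsetSum_apply]
    simp only [Measure.smul_apply, measure_univ, smul_eq_mul, mul_one]
    rw [← ENNReal.ofReal_sum_of_nonneg fun r _ => final_sw_nonneg r, final_sw_sum,
      ENNReal.ofReal_one]
  · rw [hR, finRk_indep]
    exact (hD k _ _ r l).1
  let m : Seed k → Ω → Fin k → ℝ := fun r ω e =>
    if decide (IsSample r e) = true then S ω e else V ω e
  have hm : ∀ r, Measurable (m r) := fun r => measurable_pi_lambda _ fun e => by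
    by_cases h : IsSample r e
    · simp only [m, h, decide_true, if_true]
      exact (measurable_pi_apply e).comp hS
    · simp only [m, h, decide_false, if_false, Bool.false_eq_true]
      exact (measurable_pi_apply e).comp hV'
  have hmap : ∀ r, P.map (m r) = P.map V := by
    intro r
    have h1 := final_map_eq hS hV' hind hid fun e => decide (IsSample r e)
    have h2 := final_map_eq hS hV' hind hid fun _ => false
    simp only [Bool.false_eq_true, if_false] at h2
    exact h1.trans h2.symm
  let G : Seed k × Ω → ENNReal := fun p => finPsi (finRk M) p.1 fun e => cls (m p.1 p.2 e)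
  have hG : Measurable G := measurable_from_prod_countable_right fun r =>
    (final_measurable (finPsi (finRk M) r)).comp (hm r)
  have hle : ∀ p : Seed k × Ω, G p ≤ ⨅ σ : Equiv.Perm (Fin k),
      ENNReal.ofReal (∑ e ∈ sAccepted R p.1 (S p.2) (V p.2) (List.ofFn σ), V p.2 e) := by
    intro p
    refine iInf_mono fun σ => ENNReal.ofReal_le_ofReal ?_
    have e1 : (fun e => cls (m p.1 p.2 e)) = cw p.1 (S p.2) (V p.2) := by
      funext e
      simp only [m, cw, decide_eq_true_eq]
    rw [hR, e1]
    refine sum_le_sum fun e he => ?_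
    have h1 := final_not_sample _ _ _ _ he
    simp only [cw, if_neg h1]
    exact final_val_le (h0 _ _).2
  refine le_trans ?_ (lintegral_mono hle)
  rw [lintegral_prod G hG.aemeasurable, lintegral_finsetSum_measure]
  have hr : ∀ r : Seed k, ∫⁻ x, ∫⁻ y, G (x, y) ∂P ∂(ENNReal.ofReal (sw r) • Measure.dirac r) =
      ∫⁻ ω, ENNReal.ofReal (sw r) * finPsi (finRk M) r (fun e => cls (V ω e)) ∂P := by
    intro r
    rw [lintegral_smul_measure, lintegral_dirac, lintegral_const_mul' _ _ ENNReal.ofReal_ne_top,
      smul_eq_mul, ← lintegral_map (final_measurable (finPsi (finRk M) r)) hV', ← hmap r,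
      lintegral_map (final_measurable (finPsi (finRk M) r)) (hm r)]
  simp only [hr]
  rw [← lintegral_finsetSum (μ := P)
    (f := fun r ω => ENNReal.ofReal (sw r) * finPsi (finRk M) r fun e => cls (V ω e)) _
    fun r _ => ((final_measurable (finPsi (finRk M) r)).comp hV').const_mul _,
    ← lintegral_const_mul' _ _ (ENNReal.pow_ne_top (by simp))]
  exact lintegral_mono fun ω => final_point hV M (V ω)

end Crest.Agent.R305
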