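import Crest.Agent.R305.Struct
import Crest.Agent.R305.Prob

/-!
# Row 305: the expectation over the labels `P / U / O`
-/

set_option autoImplicit false

namespace Crest.Agent.R305

open Finset
open scoped Classical

variable {n : ℕ} (ρ : Rk n) (E : Finset (Fin n)) (c : Fin n → K) (σ1 : Fin n → Bool) (i : K)

/-- The class-`i` elements of depth at least `k`. -/
noncomputable def TT (ℓ : Fin n → Fin 3) (k : ℕ) : Finset (Fin n) :=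
  (H ρ E c σ1 ℓ k).filter fun s => c s = i

/-- `z` is spanned by the earlier elements of `T` and the density closure of `F`. -/
def Sp (T : Finset (Fin n)) (z : Fin n) (F : Finset (Fin n)) : Prop :=
  z ∈ ρ.cl (T.filter (· < z) ∪ Dop ρ E c σ1 i F)

theorem Sp_mono (T : Finset (Fin n)) (z : Fin n) {A A' : Finset (Fin n)} (h : A ⊆ A')
    (hA : Sp ρ E c σ1 i T z A) : Sp ρ E c σ1 i T z A' :=
  ρ.cl_mono (union_subset_union (Subset.refl _) (Dop_mono' ρ E c σ1 i h)) hA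

/-- `z` leaves at level `k`. -/
def EvA (ℓ : Fin n → Fin 3) (k : ℕ) (z : Fin n) : Prop :=
  z ∈ TT ρ E c σ1 i ℓ k ∧ ¬ Sp ρ E c σ1 i (TT ρ E c σ1 i ℓ k) z (Fp ρ E c σ1 ℓ i (k + 1))

/-- `z` is spanned by the threat. -/
def EvX (ℓ : Fin n → Fin 3) (k : ℕ) (z : Fin n) : Prop :=
  Sp ρ E c σ1 i (TT ρ E c σ1 i ℓ k) z (Xi ρ E c σ1 ℓ i k)

/-- `z` stays at level `k` but is not spanned by the threat. -/
def EvD (ℓ : Fin n → Fin 3) (k : ℕ) (z : Fin n) : Prop :=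
  z ∈ TT ρ E c σ1 i ℓ k ∧ Sp ρ E c σ1 i (TT ρ E c σ1 i ℓ k) z (Fp ρ E c σ1 ℓ i (k + 1)) ∧
    ¬ EvX ρ E c σ1 i ℓ k z

theorem exitRk_eq (ℓ : Fin n → Fin 3) (k : ℕ) :
    (exitRk ρ E c σ1 ℓ i k : ℝ) = ∑ z, if EvA ρ E c σ1 i ℓ k z then 1 else 0 := by
  rw [sum_boole, exitRk, ← ρ.card_greedy]
  congr 2
  ext z
  simp only [Rk.greedy, mem_filter, mem_univ, true_and, EvA, Sp, TT, Dp]

theorem le_gain (ℓ : Fin n → Fin 3) (k : ℕ) :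
    (∑ z, if ℓ z = 1 then
      (if EvA ρ E c σ1 i ℓ k z ∧ ¬ EvX ρ E c σ1 i ℓ k z then (1 : ℝ) else 0) else 0) ≤
      gain ρ E c σ1 ℓ i k := by
  simp only [← ite_and]
  rw [sum_boole]
  set Z := univ.filter fun z => ℓ z = 1 ∧ EvA ρ E c σ1 i ℓ k z ∧ ¬ EvX ρ E c σ1 i ℓ k z
  have h1 : ρ.rel Z (Dop ρ E c σ1 i (Xi ρ E c σ1 ℓ i k)) = Z.card :=
    ρ.rel_eq_card_of_greedy (T := TT ρ E c σ1 i ℓ k) (fun z hz => (mem_filter.1 hz).2.2.1.1)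
      fun z hz => (mem_filter.1 hz).2.2.2
  have h2 : Z ⊆ (Elig ρ E c σ1 ℓ k).filter fun s => c s = i := by
    intro z hz
    obtain ⟨-, h3, ⟨h4, h5⟩, -⟩ := mem_filter.1 hz
    obtain ⟨h6, h7⟩ := mem_filter.1 h4
    refine mem_filter.2 ⟨(mem_Elig ρ E c σ1 ℓ).2 ⟨h6, fun h8 => h5 ?_, h3⟩, h7⟩
    have h9 := ((mem_H ρ E c σ1 ℓ).1 h8).2.2
    rw [h7] at h9
    exact ρ.subset_cl _ (mem_union_right _ h9)
  have h3 := ρ.rel_mono_left' (Dop ρ E c σ1 i (Xi ρ E c σ1 ℓ i k)) h2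
  rw [h1] at h3
  exact_mod_cast h3

theorem TT_local {ℓ ℓ' : Fin n → Fin 3} (h : ∀ s, c s < i → ℓ s = ℓ' s) (k : ℕ) :
    TT ρ E c σ1 i ℓ k = TT ρ E c σ1 i ℓ' k := by
  ext s
  simp only [TT, mem_filter]
  exact and_congr_left fun hs => H_local h k hs.le

theorem Ex_label (k : ℕ) (z : Fin n) :
    (Ex q2 fun ℓ => if ℓ z = 1 then
      (if EvA ρ E c σ1 i ℓ k z ∧ ¬ EvX ρ E c σ1 i ℓ k z then (1 : ℝ) else 0) else 0) =
    (1 / 2 ^ 17) * Ex q2 fun ℓ =>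
      if EvA ρ E c σ1 i ℓ k z ∧ ¬ EvX ρ E c σ1 i ℓ k z then (1 : ℝ) else 0 := by
  rw [Ex_indep q2_sum z 1, q2_one]
  intro ℓ y
  by_cases hz : c z = i
  · have h : ∀ s, c s < i → Function.update ℓ z y s = ℓ s := fun s hs =>
      Function.update_of_ne (by rintro rfl; exact hs.ne hz) _ _
    refine if_congr ?_ rfl rfl
    simp only [EvA, EvX, TT_local ρ E c σ1 i h, Xi_local h,
      Fp_local (σ1 := σ1) (σ1' := σ1) (fun s hs => ⟨rfl, h s hs⟩)]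
  · have e : ∀ ℓ', ¬ EvA ρ E c σ1 i ℓ' k z := fun ℓ' h => hz (mem_filter.1 h.1).2
    simp [e]

/-- The resampled set: lighter elements of depth at least `k`. -/
noncomputable def SS (k : ℕ) (ℓ : Fin n → Fin 3) : Finset (Fin n) :=
  (H ρ E c σ1 ℓ k).filter fun s => c s < i

/-- The lighter boosters alive at level `k`. -/
noncomputable def BB (k : ℕ) (ℓ : Fin n → Fin 3) : Finset (Fin n) :=
  (G ρ E c σ1 ℓ k).filter fun s => σ1 s = true ∧ c s < i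

theorem merge_fresh (k : ℕ) (ℓ η : Fin n → Fin 3) :
    ∀ s, s ∉ H ρ E c σ1 ℓ k → merge (SS ρ E c σ1 i k ℓ) η ℓ s = ℓ s :=
  fun _ hs => merge_of_not_mem fun h => hs (mem_filter.1 h).1

theorem Fp_merge {k : ℕ} {ℓ ℓ' η : Fin n → Fin 3} (hf : ∀ s, s ∉ H ρ E c σ1 ℓ k → ℓ' s = ℓ s)
    (hη : ∀ s ∈ SS ρ E c σ1 i k ℓ, ℓ' s = η s) :
    Fp ρ E c σ1 ℓ' i (k + 1) = BB ρ E c σ1 i k ℓ ∪ (SS ρ E c σ1 i k ℓ).filter fun s => η s = 0 := by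
  ext s
  simp only [Fp, BB, mem_filter, mem_union]
  constructor
  · rintro ⟨h1, h2⟩
    cases hb : σ1 s with
    | true => exact Or.inl ⟨(G_fresh hf hb).1 h1, rfl, h2⟩
    | false =>
      rw [mem_G_of_false ρ E c σ1 _ hb, H_fresh hf] at h1
      have h3 : s ∈ SS ρ E c σ1 i k ℓ := mem_filter.2 ⟨h1.1, h2⟩
      exact Or.inr ⟨h3, hη s h3 ▸ h1.2⟩
  · rintro (⟨h1, h2, h3⟩ | ⟨h1, h2⟩)
    · exact ⟨(G_fresh hf h2).2 h1, h3⟩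
    · obtain ⟨h3, h4⟩ := mem_filter.1 h1
      rw [mem_G_of_false ρ E c σ1 _ ((mem_H ρ E c σ1 ℓ).1 h3).2.1, H_fresh hf, hη s h1]
      exact ⟨⟨h3, h2⟩, h4⟩

theorem Xi_merge {k : ℕ} {ℓ ℓ' η : Fin n → Fin 3} (hf : ∀ s, s ∉ H ρ E c σ1 ℓ k → ℓ' s = ℓ s)
    (hη : ∀ s ∈ SS ρ E c σ1 i k ℓ, ℓ' s = η s) :
    Xi ρ E c σ1 ℓ' i k = BB ρ E c σ1 i k ℓ ∪ (SS ρ E c σ1 i k ℓ).filter fun s =>
      (s ∈ H ρ E c σ1 ℓ' (k + 1) ∧ η s = 0) ∨ (¬ s ∈ H ρ E c σ1 ℓ' (k + 1) ∧ η s = 1) := by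
  ext s
  rw [mem_Xi, mem_Elig, H_fresh hf, mem_union, BB, mem_filter, mem_filter]
  constructor
  · rintro ⟨⟨h1, h2⟩ | ⟨h1, h2⟩ | ⟨h1, h2, h4⟩, h3⟩
    · exact Or.inl ⟨(G_fresh hf h2).1 h1, h2, h3⟩
    · have h4 : s ∈ SS ρ E c σ1 i k ℓ :=
        mem_filter.2 ⟨H_fresh hf ▸ H_anti ρ E c σ1 _ (Nat.le_succ k) h1, h3⟩
      exact Or.inr ⟨h4, Or.inl ⟨h1, hη s h4 ▸ h2⟩⟩
    · have h5 : s ∈ SS ρ E c σ1 i k ℓ := mem_filter.2 ⟨h1, h3⟩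
      exact Or.inr ⟨h5, Or.inr ⟨h2, hη s h5 ▸ h4⟩⟩
  · rintro (⟨h1, h2, h3⟩ | ⟨h1, ⟨h2, h3⟩ | ⟨h2, h3⟩⟩)
    · exact ⟨Or.inl ⟨(G_fresh hf h2).2 h1, h2⟩, h3⟩
    · exact ⟨Or.inr (Or.inl ⟨h2, (hη s h1).trans h3⟩), (mem_filter.1 h1).2⟩
    · exact ⟨Or.inr (Or.inr ⟨(mem_filter.1 h1).1, h2, (hη s h1).trans h3⟩), (mem_filter.1 h1).2⟩

theorem Ex_sli (hS : SLIStmt) (k : ℕ) (z : Fin n) :
    (Ex q2 fun ℓ =>
      (1 / 2 : ℝ) * (if EvA ρ E c σ1 i ℓ k z ∧ EvX ρ E c σ1 i ℓ k z then 1 else 0) -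
      (1 / 2 ^ 17 : ℝ) * (if EvD ρ E c σ1 i ℓ k z then 1 else 0)) ≤ 0 := by
  have hf := merge_fresh ρ E c σ1 i k
  rw [Ex_merge q2_sum (SS ρ E c σ1 i k) fun ℓ η => by
    rw [SS, H_fresh (hf ℓ η)]; rfl]
  refine Ex_nonpos q2_nonneg fun ℓ => ?_
  have hT : ∀ η, TT ρ E c σ1 i (merge (SS ρ E c σ1 i k ℓ) η ℓ) k = TT ρ E c σ1 i ℓ k :=
    fun η => by simp only [TT, H_fresh (hf ℓ η)]
  by_cases hz : z ∈ TT ρ E c σ1 i ℓ k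
  swap
  · refine Ex_nonpos q2_nonneg fun η => ?_
    simp [EvA, EvD, hT, hz]
  have key := hS n (SS ρ E c σ1 i k ℓ) (BB ρ E c σ1 i k ℓ) c
    (fun s η => s ∈ H ρ E c σ1 (merge (SS ρ E c σ1 i k ℓ) η ℓ) (k + 1))
    (Sp ρ E c σ1 i (TT ρ E c σ1 i ℓ k) z) (fun A A' h hA => Sp_mono ρ E c σ1 i _ z h hA)
    (fun s _ t hst η x => H_local (i := c s) (fun u hu => by
      have : u ≠ t := by rintro rfl; exact absurd hu (not_lt.2 hst)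
      simp [merge, this]) (k + 1) le_rfl)
  refine le_of_eq_of_le (Ex_congr fun η => ?_) key
  have hΦ := Fp_merge ρ E c σ1 i (hf ℓ η) fun s hs => merge_of_mem (η := η) (ω := ℓ) hs
  have hΞ := Xi_merge ρ E c σ1 i (hf ℓ η) fun s hs => merge_of_mem (η := η) (ω := ℓ) hs
  congr 2
  · refine if_congr ?_ rfl rfl
    rw [EvA, EvX, hT, hΦ, hΞ]
    simp only [hz, true_and]
    congr!
  · refine if_congr ?_ rfl rfl
    rw [EvD, EvX, hT, hΦ, hΞ]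
    simp only [hz, true_and]
    congr!

theorem sum_EvD_le (ℓ : Fin n → Fin 3) (N : ℕ) :
    (∑ k ∈ range N, ∑ z, if EvD ρ E c σ1 i ℓ k z then (1 : ℝ) else 0) ≤
      ρ.r (E.filter fun s => c s = i) := by
  set C := E.filter fun s => c s = i
  set u : ℕ → ℝ := fun k => ρ.rel C (Dp ρ E c σ1 ℓ i (k + 1))
  have h1 : ∀ k, (∑ z, if EvD ρ E c σ1 i ℓ k z then (1 : ℝ) else 0) ≤ u (k + 1) - u k := by
    intro k
    set T := TT ρ E c σ1 i ℓ k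
    have hTC : T ⊆ C := fun s hs =>
      mem_filter.2 ⟨((mem_H ρ E c σ1 ℓ).1 (mem_filter.1 hs).1).1, (mem_filter.1 hs).2⟩
    have hD : Dp ρ E c σ1 ℓ i (k + 2) ⊆ Dp ρ E c σ1 ℓ i (k + 1) :=
      Dp_anti ρ E c σ1 ℓ i (Nat.le_succ _)
    have h2 := ρ.conn_mono hTC (hD.trans (ρ.subset_cl _))
    rw [← ρ.card_greedy T, ← ρ.card_greedy T] at h2
    have h3 : ρ.greedy T (Dp ρ E c σ1 ℓ i (k + 1)) ⊆ ρ.greedy T (Dp ρ E c σ1 ℓ i (k + 2)) :=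
      fun z hz => mem_filter.2 ⟨(mem_filter.1 hz).1, fun h => (mem_filter.1 hz).2
        (ρ.cl_mono (union_subset_union (Subset.refl _) hD) h)⟩
    have h4 : (univ.filter fun z => EvD ρ E c σ1 i ℓ k z) ⊆
        ρ.greedy T (Dp ρ E c σ1 ℓ i (k + 2)) \ ρ.greedy T (Dp ρ E c σ1 ℓ i (k + 1)) := by
      intro z hz
      obtain ⟨-, h5, h6, h7⟩ := mem_filter.1 hz
      refine mem_sdiff.2 ⟨mem_filter.2 ⟨h5, fun h => h7 ?_⟩, fun h => (mem_filter.1 h).2 h6⟩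
      exact Sp_mono ρ E c σ1 i T z (Fp_subset_Xi ρ E c σ1 ℓ i k) h
    have h5 := card_le_card h4
    have h6 := card_sdiff_add_card_eq_card h3
    have h7 : (univ.filter fun z => EvD ρ E c σ1 i ℓ k z).card +
        ρ.rel C (Dp ρ E c σ1 ℓ i (k + 1)) ≤ ρ.rel C (Dp ρ E c σ1 ℓ i (k + 2)) := by omega
    rw [sum_boole, le_sub_iff_add_le]
    simp only [u]
    exact_mod_cast h7
  refine (sum_le_sum fun k _ => h1 k).trans ?_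
  rw [sum_range_sub]
  have h2 : u N ≤ ρ.r C := Nat.cast_le.2 (ρ.rel_le_r _ _)
  have h3 : 0 ≤ u 0 := Nat.cast_nonneg _
  linarith

theorem gainStmt (hS : SLIStmt) : GainStmt := by
  intro n ρ E c σ1 i
  have h1 : ∀ k z, (1 / 2 ^ 17 : ℝ) *
      ((Ex q2 fun ℓ => if EvA ρ E c σ1 i ℓ k z then (1 : ℝ) else 0) -
        (1 / 2 ^ 16 : ℝ) * Ex q2 fun ℓ => if EvD ρ E c σ1 i ℓ k z then (1 : ℝ) else 0) ≤
      Ex q2 fun ℓ => if ℓ z = 1 then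
        (if EvA ρ E c σ1 i ℓ k z ∧ ¬ EvX ρ E c σ1 i ℓ k z then (1 : ℝ) else 0) else 0 := by
    intro k z
    have h2 := Ex_sli ρ E c σ1 i hS k z
    rw [Ex_sub, Ex_const_mul, Ex_const_mul] at h2
    have h3 : (Ex q2 fun ℓ => if EvA ρ E c σ1 i ℓ k z then (1 : ℝ) else 0) =
        (Ex q2 fun ℓ => if EvA ρ E c σ1 i ℓ k z ∧ EvX ρ E c σ1 i ℓ k z then (1 : ℝ) else 0) +
        Ex q2 fun ℓ => if EvA ρ E c σ1 i ℓ k z ∧ ¬ EvX ρ E c σ1 i ℓ k z then (1 : ℝ) else 0 := by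
      rw [← Ex_add]
      refine Ex_congr fun ℓ => ?_
      by_cases ha : EvA ρ E c σ1 i ℓ k z <;> by_cases hx : EvX ρ E c σ1 i ℓ k z <;> simp [ha, hx]
    rw [Ex_label, h3]
    linarith
  have h2 : (Ex q2 fun ℓ => ∑ k ∈ range (n + 1), (exitRk ρ E c σ1 ℓ i k : ℝ)) =
      ∑ k ∈ range (n + 1), ∑ z, Ex q2 fun ℓ => if EvA ρ E c σ1 i ℓ k z then (1 : ℝ) else 0 := by
    simp only [exitRk_eq, Ex_sum]
  have h3 : (∑ k ∈ range (n + 1), ∑ z,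
      Ex q2 fun ℓ => if EvD ρ E c σ1 i ℓ k z then (1 : ℝ) else 0) ≤
      ρ.r (E.filter fun s => c s = i) := by
    simp only [← Ex_sum]
    exact (Ex_mono q2_nonneg fun ℓ => sum_EvD_le ρ E c σ1 i ℓ _).trans (Ex_const q2_sum _).le
  have h4 : (∑ k ∈ range (n + 1), ∑ z, Ex q2 fun ℓ => if ℓ z = 1 then
        (if EvA ρ E c σ1 i ℓ k z ∧ ¬ EvX ρ E c σ1 i ℓ k z then (1 : ℝ) else 0) else 0) ≤
      Ex q2 fun ℓ => ∑ k ∈ range (n + 1), (gain ρ E c σ1 ℓ i k : ℝ) := by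
    simp only [← Ex_sum]
    exact Ex_mono q2_nonneg fun ℓ => sum_le_sum fun k _ => le_gain ρ E c σ1 i ℓ k
  have h5 := sum_le_sum fun k (_ : k ∈ range (n + 1)) =>
    sum_le_sum fun z (_ : z ∈ univ) => h1 k z
  simp only [← mul_sum, sum_sub_distrib] at h5
  rw [h2]
  linarith

end Crest.Agent.R305
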