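import Crest.Agent.R305.Dens
import Crest.Agent.R305.Prob

/-!
# Row 305: the rank lemma (encoding, union bound, exponential moment)
-/

set_option autoImplicit false

namespace Crest.Agent.R305

open Finset
open scoped Classical

variable {n : ℕ}

/-- The support of a weight inside `C`. -/
noncomputable def rkT (C : Finset (Fin n)) (w : Fin n → ℕ) : Finset (Fin n) :=
  C.filter fun a => w a ≠ 0

/-- The elements that the code `(w, A)` certifies as sampled. -/
noncomputable def rkV (ρ : Rk n) (N : ℕ) (F : ℕ → Finset (Fin n)) (C : Finset (Fin n))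
    (w : Fin n → ℕ) (A : Finset (Fin n)) : Finset (Fin n) :=
  C.filter fun x => ∃ k < N, x ∈ ρ.dens 12 w (F k) ∧ x ∉ ρ.dens 12 w (F (k + 1)) ∧
    x ∉ ρ.cl (A ∩ ρ.dens 12 w (F k) ∪ ρ.dens 12 w (F (k + 1)))

/-- The surplus of a code. -/
noncomputable def rkZ (ρ : Rk n) (N : ℕ) (F : ℕ → Finset (Fin n)) (C : Finset (Fin n))
    (w : Fin n → ℕ) (A : Finset (Fin n)) : ℝ :=
  ((rkV ρ N F C w A \ rkT C w).card : ℝ) - (rkT C w).card - 2 * A.card

/-- The admissible weights. -/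
noncomputable def rkW (C : Finset (Fin n)) : Finset (Fin n → ℕ) :=
  Fintype.piFinset fun a => if a ∈ C then range 13 else {0}

theorem rank_det (h : CompressStmt) (ρ : Rk n) (N : ℕ) (F : ℕ → Finset (Fin n))
    (hF : ∀ k, F (k + 1) ⊆ F k) (h0 : F 0 = univ) (hN : F N = ∅) (C B C0 : Finset (Fin n))
    (hB : B ⊆ C) (hBi : ρ.r B = B.card) (hC0 : C0 ⊆ C) :
    ∃ w ∈ rkW C, ∃ A ∈ C.powerset, Disjoint (rkV ρ N F C w A) C0 ∧ rkT C w ⊆ B ∧
      (B.card : ℝ) ≤ 2 * rkZ ρ N F C w A + 28 * ∑ k ∈ range N,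
        (ρ.rel (C0 ∩ ρ.dens 12 (ind B) (F k)) (ρ.dens 12 (ind B) (F (k + 1))) : ℝ) := by
  obtain ⟨w, hw1, hw2, hw3, hw4⟩ := h n 12 N ρ B F (by norm_num) hF h0 hN hBi
  set D : ℕ → Finset (Fin n) := fun k => ρ.dens 12 (ind B) (F k) with hD
  have hFa : Antitone F := antitone_nat_of_succ_le hF
  have hDa : ∀ j k, j ≤ k → D k ⊆ D j := fun j k hjk => ρ.dens_mono' 12 _ (hFa hjk)
  choose A hA1 hA2 hA3 hA4 using fun k => ρ.exists_basis (C0 ∩ D k) (D (k + 1))
  have hAD : ∀ j, A j ⊆ D j := fun j => (hA1 j).trans inter_subset_right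
  have hAn : ∀ j, ∀ x ∈ A j, x ∉ D (j + 1) := fun j x hx hx' =>
    ρ.not_mem_cl_of_indep (hA3 j) hx (ρ.subset_cl _ hx')
  set AA := (range N).biUnion A with hAA
  have hAAc : AA.card ≤ ∑ k ∈ range N, (A k).card := card_biUnion_le
  have hAk : ∀ k, AA ∩ D k ⊆ A k ∪ D (k + 1) := by
    intro k x hx
    obtain ⟨hx1, hx2⟩ := mem_inter.1 hx
    obtain ⟨j, -, hj⟩ := mem_biUnion.1 hx1
    rcases lt_trichotomy j k with hjk | rfl | hjk
    · exact absurd (hDa _ _ hjk hx2) (hAn j x hj)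
    · exact mem_union_left _ hj
    · exact mem_union_right _ (hDa _ _ hjk (hAD j hj))
  have hV : ∀ x, x ∈ rkV ρ N F C w AA ↔ x ∈ C ∧ ∃ k < N, x ∈ D k ∧ x ∉ D (k + 1) ∧
      x ∉ ρ.cl (AA ∩ D k ∪ D (k + 1)) := by
    intro x
    unfold rkV
    rw [mem_filter]
    refine and_congr_right fun _ => exists_congr fun k => and_congr_right fun hk => ?_
    rw [hw4 k hk.le, hw4 (k + 1) hk]
  have hT : rkT C w = B.filter fun a => w a ≠ 0 := by
    ext a
    unfold rkT
    simp only [mem_filter]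
    exact ⟨fun ha => ⟨hw1 a ha.2, ha.2⟩, fun ha => ⟨hB ha.1, ha.2⟩⟩
  refine ⟨w, ?_, AA, ?_, ?_, ?_, ?_⟩
  · refine Fintype.mem_piFinset.2 fun a => ?_
    split_ifs with ha
    · exact mem_range.2 (Nat.lt_succ_of_le (hw2 a))
    · rw [mem_singleton]
      by_contra hne
      exact ha (hB (hw1 a hne))
  · refine mem_powerset.2 (biUnion_subset.2 fun k _ => ?_)
    exact (hA1 k).trans (inter_subset_left.trans hC0)
  · refine disjoint_left.2 fun x hx hx0 => ?_
    obtain ⟨-, k, hk, h1, -, h3⟩ := (hV x).1 hx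
    refine h3 (ρ.cl_mono ?_ (hA4 k (mem_inter.2 ⟨hx0, h1⟩)))
    refine union_subset_union (subset_inter ?_ (hAD k)) (Subset.refl _)
    exact subset_biUnion_of_mem A (mem_range.2 hk)
  · rw [hT]; exact filter_subset _ _
  · have hlev : ∀ x ∈ B, ∃ k < N, x ∈ D k ∧ x ∉ D (k + 1) := by
      intro x hx
      by_contra hne
      push Not at hne
      have hall : ∀ k ≤ N, x ∈ D k := by
        intro k
        induction k with
        | zero =>
          intro _
          show x ∈ ρ.dens 12 (ind B) (F 0)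
          rw [h0, ρ.dens_univ]; exact mem_univ _
        | succ k ih => intro hk; exact hne k hk (ih (Nat.le_of_succ_le hk))
      have h1 : x ∈ ρ.dens 12 (ind B) (F N) := hall N le_rfl
      rw [hN, ρ.dens_empty 12 (by norm_num) hBi] at h1
      exact ρ.not_mem_cl_of_indep (by rw [ρ.rel_empty_right, hBi]) hx h1
    set V := rkV ρ N F C w AA with hVd
    let Q : ℕ → Finset (Fin n) := fun k => (B \ V) ∩ (D k \ D (k + 1))
    have hQ : ∀ k ∈ range N, (Q k).card ≤ 12 * (A k).card := by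
      intro k hk
      have h1 : Q k ⊆ ρ.cl (A k ∪ D (k + 1)) := by
        intro x hx
        obtain ⟨hx1, hx2⟩ := mem_inter.1 hx
        obtain ⟨hxB, hxV⟩ := mem_sdiff.1 hx1
        obtain ⟨hx3, hx4⟩ := mem_sdiff.1 hx2
        by_contra hx5
        refine hxV ((hV x).2 ⟨hB hxB, k, mem_range.1 hk, hx3, hx4, fun hx6 => hx5 ?_⟩)
        exact ρ.cl_mono (union_subset (hAk k) subset_union_right) hx6
      have h2 := ρ.dens_upper 12 (ind B) (F (k + 1)) (Q k)
      have h3 : (Q k \ ρ.dens 12 (ind B) (F (k + 1))) ∩ B = Q k := by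
        ext x
        simp only [mem_inter, mem_sdiff, Q, hD]
        tauto
      rw [wt_ind, h3] at h2
      have h4 := ρ.rel_mono_left h1
      rw [hA3 k] at h4
      exact h2.trans (Nat.mul_le_mul_left _ h4)
    have h1 : (B \ V).card ≤ 12 * ∑ k ∈ range N, (A k).card := by
      have h2 : B \ V ⊆ (range N).biUnion Q := by
        intro x hx
        obtain ⟨k, hk, h3, h4⟩ := hlev x (mem_sdiff.1 hx).1
        exact mem_biUnion.2 ⟨k, mem_range.2 hk, mem_inter.2 ⟨hx, mem_sdiff.2 ⟨h3, h4⟩⟩⟩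
      rw [mul_sum]
      exact (card_le_card h2).trans (card_biUnion_le.trans (sum_le_sum hQ))
    have h2 : B.card ≤ (B \ V).card + ((V \ rkT C w).card + (rkT C w).card) := by
      have h3 : B ⊆ (B \ V) ∪ ((V \ rkT C w) ∪ rkT C w) := by
        intro x hx
        simp only [mem_union, mem_sdiff]
        tauto
      refine (card_le_card h3).trans ((card_union_le _ _).trans ?_)
      exact Nat.add_le_add_left (card_union_le _ _) _
    have h3 : 12 * (rkT C w).card ≤ 3 * B.card := by rw [hT]; exact hw3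
    have h4 : (∑ k ∈ range N, (ρ.rel (C0 ∩ D k) (D (k + 1)) : ℝ)) =
        ((∑ k ∈ range N, (A k).card : ℕ) : ℝ) := by
      push_cast
      exact sum_congr rfl fun k _ => by rw [hA2 k]
    have h5 : B.card + 2 * (rkT C w).card + 4 * AA.card ≤
        2 * (V \ rkT C w).card + 28 * ∑ k ∈ range N, (A k).card := by omega
    have h6 : (B.card : ℝ) + 2 * (rkT C w).card + 4 * AA.card ≤
        2 * (V \ rkT C w).card + 28 * ((∑ k ∈ range N, (A k).card : ℕ) : ℝ) := by
      exact_mod_cast h5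
    show (B.card : ℝ) ≤ 2 * rkZ ρ N F C w AA +
      28 * ∑ k ∈ range N, (ρ.rel (C0 ∩ D k) (D (k + 1)) : ℝ)
    rw [h4]
    unfold rkZ
    linarith

theorem sum_rkW (C : Finset (Fin n)) (x : ℝ) :
    ∑ w ∈ rkW C, x ^ (rkT C w).card = (1 + 12 * x) ^ C.card := by
  have e1 : ∀ w : Fin n → ℕ, x ^ (rkT C w).card =
      ∏ a, (if a ∈ C ∧ w a ≠ 0 then x else 1) := fun w => by
    rw [← prod_filter, prod_const]
    congr 2
    ext a; simp [rkT]
  simp only [e1]
  unfold rkW
  rw [← Finset.prod_univ_sum (fun a => if a ∈ C then range 13 else {0})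
    (fun a j => if a ∈ C ∧ j ≠ 0 then x else 1)]
  have e2 : ∀ a : Fin n, (∑ j ∈ (if a ∈ C then range 13 else {0}),
      (if a ∈ C ∧ j ≠ 0 then x else 1)) = if a ∈ C then 1 + 12 * x else 1 := fun a => by
    by_cases ha : a ∈ C
    · simp only [ha, if_true, true_and]
      simp [sum_range_succ]; ring
    · simp [ha]
  simp only [e2]
  rw [← prod_filter, filter_mem_eq_inter, univ_inter, prod_const]

theorem sum_pow_card (C : Finset (Fin n)) (x : ℝ) :
    ∑ A ∈ C.powerset, x ^ A.card = (1 + x) ^ C.card := by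
  rw [← prod_const, prod_one_add]
  exact sum_congr rfl fun A _ => by rw [prod_const]

theorem rank_term (v t a : ℕ) :
    Real.exp (Real.log 256 * ((v : ℝ) - t - 2 * a)) * (1 / 256 : ℝ) ^ (v + t) =
      ((1 / 256 : ℝ) ^ 2) ^ t * ((1 / 256 : ℝ) ^ 2) ^ a := by
  have e : ∀ m : ℕ, Real.exp (Real.log 256 * m) = (256 : ℝ) ^ m := fun m => by
    rw [mul_comm, Real.exp_nat_mul, Real.exp_log (by norm_num)]
  have e1 : Real.log 256 * ((v : ℝ) - t - 2 * a) =
      Real.log 256 * v - Real.log 256 * t - Real.log 256 * a - Real.log 256 * a := by ring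
  rw [e1, Real.exp_sub, Real.exp_sub, Real.exp_sub, e, e, e, pow_add, ← pow_mul, ← pow_mul,
    mul_comm 2 t, mul_comm 2 a, pow_mul, pow_mul]
  simp only [one_div, inv_pow]
  field_simp

theorem rank_moment (ρ : Rk n) (N : ℕ) (F : ℕ → Finset (Fin n)) (C : Finset (Fin n))
    (w : (Fin n → Bool) → Fin n → ℕ) (A : (Fin n → Bool) → Finset (Fin n))
    (hw : ∀ σ, w σ ∈ rkW C) (hA : ∀ σ, A σ ∈ C.powerset)
    (hσ : ∀ σ, ∀ a ∈ rkV ρ N F C (w σ) (A σ) ∪ rkT C (w σ), σ a = true) :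
    (Ex q1 fun σ => Real.exp (Real.log 256 * rkZ ρ N F C (w σ) (A σ))) ≤
      Real.exp (13 * (1 / 256 : ℝ) ^ 2 * C.card) := by
  have h1 : ∀ σ : Fin n → Bool, Real.exp (Real.log 256 * rkZ ρ N F C (w σ) (A σ)) ≤
      ∑ p ∈ rkW C ×ˢ C.powerset, Real.exp (Real.log 256 * rkZ ρ N F C p.1 p.2) *
        (if ∀ a ∈ rkV ρ N F C p.1 p.2 ∪ rkT C p.1, σ a = true then 1 else 0) := by
    intro σ
    refine le_trans ?_ (single_le_sum (f := fun p : (Fin n → ℕ) × Finset (Fin n) =>
      Real.exp (Real.log 256 * rkZ ρ N F C p.1 p.2) *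
        (if ∀ a ∈ rkV ρ N F C p.1 p.2 ∪ rkT C p.1, σ a = true then 1 else 0))
      (fun p _ => by positivity) (mem_product.2 ⟨hw σ, hA σ⟩ : (w σ, A σ) ∈ _))
    simp only
    rw [if_pos (hσ σ), mul_one]
  refine (Ex_mono q1_nonneg h1).trans ?_
  rw [Ex_sum]
  have h2 : ∀ p : (Fin n → ℕ) × Finset (Fin n),
      (Ex q1 fun σ : Fin n → Bool => Real.exp (Real.log 256 * rkZ ρ N F C p.1 p.2) *
        (if ∀ a ∈ rkV ρ N F C p.1 p.2 ∪ rkT C p.1, σ a = true then 1 else 0)) =
      ((1 / 256 : ℝ) ^ 2) ^ (rkT C p.1).card * ((1 / 256 : ℝ) ^ 2) ^ p.2.card := by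
    intro p
    rw [Ex_const_mul, Ex_all q1_sum, ← card_sdiff_add_card]
    have : q1 true = 1 / 256 := by simp [q1]
    rw [this]
    exact rank_term _ _ _
  simp only [h2]
  rw [sum_product]
  dsimp only
  rw [← sum_mul_sum, sum_rkW, sum_pow_card, ← mul_pow]
  set x : ℝ := (1 / 256 : ℝ) ^ 2 with hx
  have hx0 : 0 ≤ x := by positivity
  rw [mul_comm _ (C.card : ℝ), Real.exp_nat_mul]
  refine pow_le_pow_left₀ (by positivity) ?_ _
  have e : 13 * x = 12 * x + x := by ring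
  rw [e, Real.exp_add]
  have h3 := Real.add_one_le_exp (12 * x)
  have h4 := Real.add_one_le_exp x
  exact mul_le_mul (by linarith) (by linarith) (by positivity) (by positivity)

theorem rank_jensen (Z : (Fin n → Bool) → ℝ) (a : ℝ) (ha : 0 ≤ a)
    (h : (Ex q1 fun σ => Real.exp (Real.log 256 * Z σ)) ≤ Real.exp a) : Ex q1 Z ≤ a := by
  have h1 : ∀ σ, Real.log 256 * Z σ ≤
      (a - 1) + (Real.exp a)⁻¹ * Real.exp (Real.log 256 * Z σ) := fun σ => by
    have := Real.add_one_le_exp (Real.log 256 * Z σ - a)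
    rw [Real.exp_sub, div_eq_inv_mul] at this
    linarith
  have h2 := Ex_mono q1_nonneg h1
  rw [Ex_const_mul, Ex_add, Ex_const q1_sum, Ex_const_mul] at h2
  have h3 : (Real.exp a)⁻¹ * (Ex q1 fun σ => Real.exp (Real.log 256 * Z σ)) ≤ 1 := by
    rw [inv_mul_le_iff₀ (Real.exp_pos a), mul_one]; exact h
  have h4 : 1 ≤ Real.log 256 := by
    rw [Real.le_log_iff_exp_le (by norm_num)]
    have := Real.exp_one_lt_d9
    linarith
  by_contra hlt
  push Not at hlt
  have h5 : 0 ≤ Ex q1 Z := ha.trans hlt.le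
  nlinarith

theorem Ex_card_filter (J : Finset (Fin n)) :
    (Ex q1 fun σ : Fin n → Bool => ((J.filter fun s => σ s = true).card : ℝ)) =
      (1 / 256 : ℝ) * J.card := by
  have e1 : ∀ σ : Fin n → Bool, ((J.filter fun s => σ s = true).card : ℝ) =
      ∑ s ∈ J, if σ s = true then (1 : ℝ) else 0 := fun σ => by
    rw [sum_boole]
  rw [Ex_congr e1, Ex_sum]
  have e2 : ∀ s : Fin n, (Ex q1 fun σ : Fin n → Bool => if σ s = true then (1 : ℝ) else 0) =
      1 / 256 := fun s => by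
    rw [Ex_indep q1_sum s true (fun _ => (1 : ℝ)) (fun _ _ => rfl), Ex_const q1_sum]
    simp [q1]
  simp only [e2]
  rw [sum_const, nsmul_eq_mul, mul_comm]

theorem rank (h : CompressStmt) : RankStmt := by
  intro n N ρ C J F hJ hJi hF h0 hN
  choose w hw A hA h1 h2 h3 using fun σ : Fin n → Bool =>
    rank_det h ρ N F hF h0 hN C (ρ.basis (C.filter fun s => σ s = true))
      (C.filter fun s => σ s = false) ((ρ.basis_subset _).trans (filter_subset _ _))
      (ρ.r_of_subset_basis (Subset.refl _)) (filter_subset _ _)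
  have hσ : ∀ σ, ∀ a ∈ rkV ρ N F C (w σ) (A σ) ∪ rkT C (w σ), σ a = true := by
    intro σ a ha
    rcases mem_union.1 ha with ha | ha
    · have haC : a ∈ C := (mem_filter.1 ha).1
      by_contra hne
      exact disjoint_left.1 (h1 σ) ha (mem_filter.2 ⟨haC, by simpa using hne⟩)
    · exact (mem_filter.1 (ρ.basis_subset _ (h2 σ ha))).2
  have hZ := rank_jensen _ _ (by positivity) (rank_moment ρ N F C w A hw hA hσ)
  have h4 : ∀ σ : Fin n → Bool, ((J.filter fun s => σ s = true).card : ℝ) ≤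
      ((ρ.basis (C.filter fun s => σ s = true)).card : ℝ) := fun σ => by
    have h5 : ρ.rel (J.filter fun s => σ s = true) ∅ = (J.filter fun s => σ s = true).card :=
      ρ.rel_eq_card_of_subset (by rw [ρ.rel_empty_right, hJi]) (filter_subset _ _)
    rw [ρ.rel_empty_right] at h5
    rw [ρ.card_basis, ← h5]
    exact_mod_cast ρ.mono (filter_subset_filter _ hJ)
  have h5 := Ex_mono q1_nonneg fun σ => (h4 σ).trans (h3 σ)
  rw [Ex_card_filter, Ex_add, Ex_const_mul, Ex_const_mul] at h5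
  have h6 : (0 : ℝ) ≤ (1 / 256 : ℝ) ^ 2 * C.card := by positivity
  linarith

end Crest.Agent.R305
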