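import Crest.Agent.R305.Struct
import Crest.Agent.R305.Acc

/-!
# Row 305: the greedy rule can be run online from the samples
-/

set_option autoImplicit false

namespace Crest.Agent.R305

open Finset
open scoped Classical

variable {n : ℕ}

theorem mem_of_mem_acc (ρ : Rk n) (El Ψ : ℕ → Finset (Fin n)) (l : List (Fin n)) :
    ∀ e ∈ acc ρ El Ψ l, e ∈ l := by
  induction l using List.reverseRecOn with
  | nil => exact fun e he => absurd he (notMem_empty e)
  | append_singleton l x ih =>
    intro e he
    rw [acc_concat] at he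
    rcases mem_insert.1 (step_subset ρ El Ψ _ x he) with h | h
    · simp [h]
    · simp [ih e h]

theorem acc_congr (ρ : Rk n) {El El' : ℕ → Finset (Fin n)} (Ψ : ℕ → Finset (Fin n))
    (l : List (Fin n)) (h : ∀ e ∈ l, ∀ k, e ∈ El k ↔ e ∈ El' k) :
    acc ρ El Ψ l = acc ρ El' Ψ l := by
  induction l using List.reverseRecOn with
  | nil => rfl
  | append_singleton l x ih =>
    have h1 : ∀ e ∈ l, ∀ k, e ∈ El k ↔ e ∈ El' k := fun e he => h e (by simp [he])
    rw [acc_concat, acc_concat, ← ih h1]
    have h2 : ∀ k, acc ρ El Ψ l ∩ El k = acc ρ El Ψ l ∩ El' k := fun k => by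
      ext e
      simp only [mem_inter]
      exact and_congr_right fun he => h1 e (mem_of_mem_acc ρ El Ψ l e he) k
    unfold step
    simp only [h2, h x (by simp)]

theorem mem_Imp_congr (ρ : Rk n) {c c' : Fin n → K} {σ0 : Fin n → Bool}
    (h : ∀ t, σ0 t = true → c t = c' t) {e : Fin n} (he : c e = c' e) :
    e ∈ Imp ρ c σ0 ↔ e ∈ Imp ρ c' σ0 := by
  have : ((pre c e).filter fun t => σ0 t = true) = (pre c' e).filter fun t => σ0 t = true := by
    ext t
    simp only [pre, mem_filter, mem_univ, true_and]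
    exact and_congr_left fun ht => by rw [h t ht, he]
  simp only [Imp, mem_filter, this]

theorem accS_congr (ρ : Rk n) {c c' : Fin n → K} (r : Seed n) (l : List (Fin n))
    (h : ∀ t, IsSample r t → c t = c' t) (hl : ∀ t ∈ l, c t = c' t) :
    accS ρ c r l = accS ρ c' r l := by
  have h0 : ∀ t, r.2.1 t = true → c t = c' t := fun t ht => h t (Or.inl ht)
  have h1 : ∀ s, r.2.2.1 s = true ∨ r.2.2.2 s = 0 →
      (s ∈ Imp ρ c r.2.1 ↔ s ∈ Imp ρ c' r.2.1) ∧ c s = c' s := fun s hs =>
    ⟨mem_Imp_congr ρ h0 (h s (Or.inr hs)), h s (Or.inr hs)⟩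
  have h2 : PsiS ρ c r = PsiS ρ c' r := funext fun k => G_congr' h1 (k + 2)
  unfold accS
  rw [h2]
  refine acc_congr ρ _ l fun e he k => ?_
  unfold ElS
  split_ifs
  · simp only [mem_Elig, mem_H, mem_Imp_congr ρ h0 (hl e he), Dp_congr' h1, hl e he]
  · rfl

/-- The value recorded for `t` in a history. -/
noncomputable def look (hist : List (Fin n × ℝ)) (t : Fin n) : ℝ := (hist.lookup t).getD 0

theorem look_map (v : Fin n → ℝ) (l : List (Fin n)) {t : Fin n} (ht : t ∈ l) :
    look (l.map fun t => (t, v t)) t = v t := by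
  induction l with
  | nil => simp at ht
  | cons a l ih =>
    unfold look at ih ⊢
    by_cases h : t = a
    · subst h
      simp
    · have h1 : t ∈ l := by simpa [h] using ht
      have h2 : (t == a) = false := by simpa using h
      rw [List.map_cons, List.lookup_cons, h2]
      exact ih h1

/-- The online rule. -/
noncomputable def ruleR (ρ : Rk n) : Crest.OnlineMatroid.SampleRule (Seed n) n where
  decide r s hist e x :=
    decide (e ∈ accS ρ (cw r s (look (hist ++ [(e, x)]))) r (hist.map Prod.fst ++ [e]))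

theorem ruleR_decide (ρ : Rk n) (r : Seed n) (s v : Fin n → ℝ) (l : List (Fin n)) (e : Fin n) :
    (ruleR ρ).decide r s (l.map fun t => (t, v t)) e (v e) = true ↔
      e ∈ accS ρ (cw r s v) r (l ++ [e]) := by
  have e1 : (l.map fun t => (t, v t)) ++ [(e, v e)] = (l ++ [e]).map fun t => (t, v t) := by simp
  have e2 : (l.map fun t => (t, v t)).map Prod.fst = l := by
    rw [List.map_map]; exact List.map_id l
  simp only [ruleR, decide_eq_true_eq, e1, e2]
  rw [accS_congr ρ (c' := cw r s v) r (l ++ [e])]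
  · intro t ht
    simp only [cw, if_pos ht]
  · intro t ht
    simp only [cw, look_map v _ ht]

theorem acc_union (ρ : Rk n) (El Ψ : ℕ → Finset (Fin n)) (l : List (Fin n)) (e : Fin n) :
    acc ρ El Ψ l ∪ (if e ∈ acc ρ El Ψ (l ++ [e]) then {e} else ∅) = acc ρ El Ψ (l ++ [e]) := by
  have h1 : acc ρ El Ψ l ⊆ acc ρ El Ψ (l ++ [e]) := by rw [acc_concat]; exact subset_step _ _ _ _ _
  have h2 : acc ρ El Ψ (l ++ [e]) ⊆ insert e (acc ρ El Ψ l) := by
    rw [acc_concat]; exact step_subset _ _ _ _ _
  refine Subset.antisymm (union_subset h1 ?_) fun x hx => ?_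
  · split_ifs with h
    · exact singleton_subset_iff.2 h
    · exact empty_subset _
  · rcases mem_insert.1 (h2 hx) with h | h
    · subst h
      rw [if_pos hx]
      exact mem_union_right _ (mem_singleton_self _)
    · exact mem_union_left _ h

theorem ruleR_aux (ρ : Rk n) (r : Seed n) (s v : Fin n → ℝ) (l : List (Fin n)) :
    ∀ l0 : List (Fin n), accS ρ (cw r s v) r l0 ∪
      Crest.OnlineMatroid.sAcceptedAux (ruleR ρ) r s v l (l0.map fun t => (t, v t)) =
      accS ρ (cw r s v) r (l0 ++ l) := by
  induction l with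
  | nil => intro l0; simp [Crest.OnlineMatroid.sAcceptedAux]
  | cons e l ih =>
    intro l0
    have e1 : (l0.map fun t => (t, v t)) ++ [(e, v e)] = (l0 ++ [e]).map fun t => (t, v t) := by
      simp
    have e2 : l0 ++ e :: l = l0 ++ [e] ++ l := by simp
    rw [Crest.OnlineMatroid.sAcceptedAux, e1, e2, ← ih (l0 ++ [e]), ← union_assoc]
    congr 1
    simp only [ruleR_decide]
    exact acc_union ρ _ _ l0 e

theorem rule : RuleStmt := fun n ρ =>
  ⟨ruleR ρ, fun r s v l => by
    have h := ruleR_aux ρ r s v l []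
    rw [List.nil_append, List.map_nil] at h
    rw [← h, Crest.OnlineMatroid.sAccepted]
    exact (empty_union _).symm⟩

end Crest.Agent.R305
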