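import Crest.Agent.R305.Prob

/-!
# Row 305: the single-level inequality
-/

set_option autoImplicit false

namespace Crest.Agent.R305

open Finset
open scoped Classical

/-- The pointwise payoff. -/
noncomputable def sliH (a b : Prop) : ℝ :=
  (1 / 2 : ℝ) * (if ¬ a ∧ b then 1 else 0) - (1 / 2 ^ 17 : ℝ) * (if a ∧ ¬ b then 1 else 0)

theorem sliH_self (a : Prop) : sliH a a = 0 := by
  unfold sliH
  by_cases h : a <;> simp [h]

theorem sliH_key (a b c d : Prop) (h1 : b → a) (h2 : d → c) :
    1 / 2 * sliH a d + 1 / 2 ^ 17 * sliH b c + (1 / 2 - 1 / 2 ^ 17) * sliH b d ≤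
      1 / 2 * sliH a c + 1 / 2 * sliH b d := by
  unfold sliH
  by_cases ha : a <;> by_cases hb : b <;> by_cases hc : c <;> by_cases hd : d <;>
    first
    | exact absurd (h1 hb) ha
    | exact absurd (h2 hd) hc
    | (simp only [ha, hb, hc, hd, not_true, not_false_iff, and_true, and_false, if_true, if_false]
       norm_num)

theorem sli_filter {n : ℕ} (B S : Finset (Fin n)) (s : Fin n) (P P' : Fin n → Prop)
    [DecidablePred P] [DecidablePred P'] (h : ∀ t ∈ S, P t ↔ P' t) :
    B ∪ (insert s S).filter P = if P s then insert s (B ∪ S.filter P') else B ∪ S.filter P' := by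
  rw [filter_insert, filter_congr h]
  split_ifs
  · rw [union_insert]
  · rfl

theorem sli_aux {n : ℕ} (B : Finset (Fin n)) (key : Fin n → K)
    (old : Fin n → (Fin n → Fin 3) → Prop) (S : Finset (Fin n)) :
    ∀ f : Finset (Fin n) → Prop, (∀ A A', A ⊆ A' → f A → f A') →
    (∀ s ∈ S, ∀ t, key s ≤ key t → ∀ η x, old s (Function.update η t x) ↔ old s η) →
    (Ex q2 fun η => sliH (f (B ∪ S.filter fun s => η s = 0))
      (f (B ∪ S.filter fun s => (old s η ∧ η s = 0) ∨ (¬ old s η ∧ η s = 1)))) ≤ 0 := by
  induction S using Finset.induction_on_max_value key with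
  | empty =>
    intro f _ _
    refine Ex_nonpos q2_nonneg fun η => ?_
    rw [filter_empty, filter_empty, sliH_self]
  | insert s S hs hmax ih =>
    intro f hf hold
    have hold' : ∀ s' ∈ S, ∀ t, key s' ≤ key t → ∀ η x,
        old s' (Function.update η t x) ↔ old s' η := fun s' hs' => hold s' (mem_insert_of_mem hs')
    have h1 := ih f hf hold'
    have h2 := ih (fun A => f (insert s A))
      (fun A A' h => hf _ _ (insert_subset_insert s h)) hold'
    rw [Ex_update q2_sum s]
    refine le_trans (Ex_mono q2_nonneg (g := fun η =>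
      1 / 2 * sliH (f (insert s (B ∪ S.filter fun s => η s = 0)))
        (f (insert s (B ∪ S.filter fun s => (old s η ∧ η s = 0) ∨ (¬ old s η ∧ η s = 1)))) +
      1 / 2 * sliH (f (B ∪ S.filter fun s => η s = 0))
        (f (B ∪ S.filter fun s => (old s η ∧ η s = 0) ∨ (¬ old s η ∧ η s = 1)))) fun η => ?_) ?_
    · have e0 : ∀ x, ∀ t ∈ S, Function.update η s x t = η t := fun x t ht =>
        Function.update_of_ne (fun h : t = s => hs (h ▸ ht)) _ _
      have e1 : ∀ x, B ∪ (insert s S).filter (fun t => Function.update η s x t = 0) =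
          if x = 0 then insert s (B ∪ S.filter fun t => η t = 0)
          else B ∪ S.filter fun t => η t = 0 := fun x => by
        rw [sli_filter B S s _ (fun t => η t = 0) fun t ht => by rw [e0 x t ht]]
        simp only [Function.update_self]
      have e2 : ∀ x, B ∪ (insert s S).filter (fun t =>
            (old t (Function.update η s x) ∧ Function.update η s x t = 0) ∨
            (¬ old t (Function.update η s x) ∧ Function.update η s x t = 1)) =
          if (old s η ∧ x = 0) ∨ (¬ old s η ∧ x = 1) then
            insert s (B ∪ S.filter fun t => (old t η ∧ η t = 0) ∨ (¬ old t η ∧ η t = 1))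
          else B ∪ S.filter fun t => (old t η ∧ η t = 0) ∨ (¬ old t η ∧ η t = 1) := fun x => by
        rw [sli_filter B S s _ (fun t => (old t η ∧ η t = 0) ∨ (¬ old t η ∧ η t = 1))
          fun t ht => by rw [e0 x t ht, hold' t ht s (hmax t ht)]]
        simp only [Function.update_self, hold s (mem_insert_self s S) s le_rfl]
      simp only [e1, e2]
      rw [Fin.sum_univ_three, q2_zero, q2_one, q2_two]
      have a1 : ¬ ((1 : Fin 3) = 0) := by decide
      have a2 : ¬ ((2 : Fin 3) = 0) := by decide
      have a3 : ¬ ((0 : Fin 3) = 1) := by decide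
      have a4 : ¬ ((2 : Fin 3) = 1) := by decide
      by_cases ho : old s η
      · simp only [ho, a1, a2, a3, a4, and_true, and_false, not_true, or_false, if_true, if_false]
        linarith
      · simp only [ho, a1, a2, a3, a4, and_true, and_false, not_false_iff, false_or, if_true,
          if_false]
        exact sliH_key _ _ _ _ (hf _ _ (subset_insert _ _)) (hf _ _ (subset_insert _ _))
    · rw [Ex_add, Ex_const_mul, Ex_const_mul]
      linarith

theorem sli : SLIStmt := by
  intro n S B key old f hf hold
  have := sli_aux B key old S f hf hold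
  unfold sliH at this
  convert this

end Crest.Agent.R305
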