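import Crest.Agent.R305.Dens

/-!
# Row 305: sparsification of one exit group
-/

set_option autoImplicit false

namespace Crest.Agent.R305

open Finset
open scoped Classical

variable {n : ℕ}

namespace Sparse

/-- remove one unit at `y` -/
def dec (w : Fin n → ℕ) (y : Fin n) : Fin n → ℕ := fun a => w a - if a = y then 1 else 0

/-- add one unit at `b` -/
def inc (w : Fin n → ℕ) (b : Fin n) : Fin n → ℕ := fun a => w a + if a = b then 1 else 0

theorem wt_inc (w : Fin n → ℕ) (b : Fin n) (A : Finset (Fin n)) :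
    wt (inc w b) A = wt w A + if b ∈ A then 1 else 0 := by
  unfold wt inc
  rw [sum_add_distrib, sum_ite_eq']

theorem wt_dec {w : Fin n → ℕ} {y : Fin n} (hy : w y ≠ 0) (A : Finset (Fin n)) :
    wt (dec w y) A + (if y ∈ A then 1 else 0) = wt w A := by
  rw [← wt_inc]
  congr 1
  funext a
  unfold inc dec
  split_ifs with h
  · subst h; omega
  · omega

theorem le_wt (w : Fin n → ℕ) {A : Finset (Fin n)} {y : Fin n} (hy : y ∈ A) : w y ≤ wt w A :=
  single_le_sum (f := w) (fun _ _ => Nat.zero_le _) hy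

theorem two_le_wt (w : Fin n → ℕ) {A : Finset (Fin n)} {y z : Fin n} (hy : y ∈ A) (hz : z ∈ A)
    (h : y ≠ z) : w y + w z ≤ wt w A := by
  have h1 := wt_mono w (show ({y, z} : Finset (Fin n)) ⊆ A from
    insert_subset hy (singleton_subset_iff.2 hz))
  rwa [wt, sum_pair h] at h1

section abstract
variable {β : ℕ} {X : Finset (Fin n)} {w : Fin n → ℕ} {cor : Finset (Fin n) → ℕ}

theorem uncross (hmono : ∀ S T, S ⊆ T → T ⊆ X → cor S ≤ cor T)
    (hsup : ∀ S T, S ⊆ X → T ⊆ X → cor S + cor T ≤ cor (S ∪ T) + cor (S ∩ T))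
    (hL : ∀ S, S ⊆ X → 1 ≤ cor S → β * cor S + 1 ≤ wt w S) {S T : Finset (Fin n)}
    (hS : S ⊆ X) (hT : T ⊆ X) (tS : Tight β w cor S) (tT : Tight β w cor T)
    (hn : ¬ Tight β w cor (S ∩ T)) : wt w (S ∩ T) ≤ 1 := by
  have h1 := wt_union_inter w S T
  have h2 := hL (S ∪ T) (union_subset hS hT)
    (tS.1.trans (hmono _ _ subset_union_left (union_subset hS hT)))
  have h3 := Nat.mul_le_mul_left β (hsup S T hS hT)
  rw [mul_add, mul_add] at h3
  have h4 := tS.2
  have h5 := tT.2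
  by_cases h6 : 1 ≤ cor (S ∩ T)
  · have h7 := hL _ (inter_subset_left.trans hS) h6
    exact absurd ⟨h6, by omega⟩ hn
  · have h7 : cor (S ∩ T) = 0 := by omega
    rw [h7, mul_zero] at h3
    omega

theorem caseB (h : SplitStmt) (hβ : 2 ≤ β) (hmono : ∀ S T, S ⊆ T → T ⊆ X → cor S ≤ cor T)
    (hsup : ∀ S T, S ⊆ X → T ⊆ X → cor S + cor T ≤ cor (S ∪ T) + cor (S ∩ T))
    (hL : ∀ S, S ⊆ X → 1 ≤ cor S → β * cor S + 1 ≤ wt w S) (Y : Finset (Fin n))
    (hY : ∀ y ∈ Y, w y ≠ 0 ∧ ∃ S T, S ⊆ X ∧ T ⊆ X ∧ Tight β w cor S ∧ Tight β w cor T ∧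
      y ∈ S ∧ y ∈ T ∧ ¬ Tight β w cor (S ∩ T)) : β * Y.card ≤ wt w X := by
  set X' := X.filter fun a => w a ≠ 0 with hX'
  set Z := X \ X' with hZ
  have hX'X : X' ⊆ X := filter_subset _ _
  have hZX : Z ⊆ X := sdiff_subset
  have hZ0 : wt w Z = 0 := sum_eq_zero fun a ha => by
    by_contra h0
    exact (mem_sdiff.1 ha).2 (mem_filter.2 ⟨(mem_sdiff.1 ha).1, h0⟩)
  have hL' : ∀ S, S ⊆ X' → 1 ≤ cor (S ∪ Z) → β * cor (S ∪ Z) + 1 ≤ wt w S := fun S hS h1 => by
    have h2 := hL _ (union_subset (hS.trans hX'X) hZX) h1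
    have h3 := wt_union_inter w S Z
    omega
  have ht : ∀ S, S ⊆ X → Tight β w cor S → Tight β w (fun S => cor (S ∪ Z)) (S ∩ X') := by
    intro S hS tS
    have h1 : S ⊆ S ∩ X' ∪ Z := fun a ha => by
      by_cases h0 : a ∈ X'
      · exact mem_union_left _ (mem_inter.2 ⟨ha, h0⟩)
      · exact mem_union_right _ (mem_sdiff.2 ⟨hS ha, h0⟩)
    have h2 := hmono _ _ h1 (union_subset (inter_subset_left.trans hS) hZX)
    have h3 := hL' _ inter_subset_right (tS.1.trans h2)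
    have h4 := wt_mono w (inter_subset_left : S ∩ X' ⊆ S)
    have h5 := Nat.mul_le_mul_left β h2
    have h6 := tS.2
    exact ⟨tS.1.trans h2, by dsimp only; omega⟩
  have h1 := h n β X' w (fun S => cor (S ∪ Z)) hβ
    (fun x hx => Nat.one_le_iff_ne_zero.2 (mem_filter.1 hx).2)
    (fun S T hST hT => hmono _ _ (union_subset_union hST (Subset.refl _))
      (union_subset (hT.trans hX'X) hZX))
    (fun S T hS hT => by
      have h2 := hsup _ _ (union_subset (hS.trans hX'X) hZX) (union_subset (hT.trans hX'X) hZX)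
      have e1 : S ∪ Z ∪ (T ∪ Z) = S ∪ T ∪ Z := by ext x; simp only [mem_union]; tauto
      have e2 : (S ∪ Z) ∩ (T ∪ Z) = S ∩ T ∪ Z := by
        ext x; simp only [mem_union, mem_inter]; tauto
      rwa [e1, e2] at h2) hL'
  refine le_trans (Nat.mul_le_mul_left β (card_le_card fun y hy => ?_))
    (h1.trans (wt_mono w hX'X))
  obtain ⟨hy0, S, T, hS, hT, tS, tT, hyS, hyT, hn⟩ := hY y hy
  have h2 := uncross hmono hsup hL hS hT tS tT hn
  have hyST : y ∈ S ∩ T := mem_inter.2 ⟨hyS, hyT⟩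
  have hyX' : y ∈ X' := mem_filter.2 ⟨hS hyS, hy0⟩
  have h3 := le_wt w hyST
  refine mem_filter.2 ⟨hyX', by omega, S ∩ X', T ∩ X', inter_subset_right, inter_subset_right,
    ht S hS tS, ht T hT tT, ?_⟩
  refine eq_singleton_iff_unique_mem.2
    ⟨mem_inter.2 ⟨mem_inter.2 ⟨hyS, hyX'⟩, mem_inter.2 ⟨hyT, hyX'⟩⟩, fun z hz => ?_⟩
  by_contra hzy
  have hz1 := mem_inter.1 (mem_inter.1 hz).1
  have hz2 := mem_inter.1 (mem_inter.1 hz).2
  have h4 := two_le_wt w (mem_inter.2 ⟨hz1.1, hz2.1⟩) hyST hzy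
  have h5 := (mem_filter.1 hz1.2).2
  omega

theorem caseA (hmono : ∀ S T, S ⊆ T → T ⊆ X → cor S ≤ cor T)
    (hsup : ∀ S T, S ⊆ X → T ⊆ X → cor S + cor T ≤ cor (S ∪ T) + cor (S ∩ T))
    (hL : ∀ S, S ⊆ X → 1 ≤ cor S → β * cor S + 1 ≤ wt w S) (Y : Finset (Fin n))
    (Sy : Fin n → Finset (Fin n))
    (hY : ∀ y ∈ Y, w y ≠ 0 ∧ y ∈ Sy y ∧ Sy y ⊆ X ∧ Tight β w cor (Sy y) ∧
      ∀ T, T ⊆ X → Tight β w cor T → y ∈ T → Sy y ⊆ T)
    (hd : ∀ y ∈ Y, ∀ y' ∈ Y, y ≠ y' → Sy y ≠ Sy y') : Y.card ≤ cor X := by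
  have hU : ∀ Y' ⊆ Y, Y'.biUnion Sy ⊆ X := fun Y' hY' =>
    biUnion_subset.2 fun y hy => (hY y (hY' hy)).2.2.1
  have key : ∀ Y' : Finset (Fin n), Y' ⊆ Y → Y'.card ≤ cor (Y'.biUnion Sy) := by
    intro Y'
    induction Y' using Finset.induction_on_max_value (fun y => (Sy y).card) with
    | empty => exact fun _ => by simp
    | insert y s hys hmax ih =>
      intro hsub
      have hy := hsub (mem_insert_self _ _)
      have hs : s ⊆ Y := (subset_insert _ _).trans hsub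
      obtain ⟨h0, h1, h2, h3, h4⟩ := hY y hy
      have hyU : y ∉ s.biUnion Sy := fun hyU => by
        obtain ⟨y', hy', hyy'⟩ := mem_biUnion.1 hyU
        have h5 := hY y' (hs hy')
        exact hd y hy y' (hs hy') (fun e => hys (e ▸ hy'))
          (eq_of_subset_of_card_le (h4 _ h5.2.2.1 h5.2.2.2.1 hyy') (hmax y' hy'))
      have h5 := hsup _ _ h2 (hU s hs)
      have h6 : cor (Sy y ∩ s.biUnion Sy) ≤ cor ((Sy y).erase y) :=
        hmono _ _ (fun a ha => mem_erase.2 ⟨fun e => hyU (e ▸ (mem_inter.1 ha).2),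
          (mem_inter.1 ha).1⟩) ((erase_subset _ _).trans h2)
      have h7 : cor ((Sy y).erase y) < cor (Sy y) := by
        by_contra h8
        have h9 := not_lt.1 h8
        have h10 := hL _ ((erase_subset y _).trans h2) (h3.1.trans h9)
        have h11 := Nat.mul_le_mul_left β h9
        have h12 : w y + wt w ((Sy y).erase y) = wt w (Sy y) := add_sum_erase _ w h1
        have h13 := h3.2
        omega
      have h8 := ih hs
      rw [card_insert_of_notMem hys, biUnion_insert]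
      omega
  exact (key Y (Subset.refl _)).trans (hmono _ _ (hU Y (Subset.refl _)) (Subset.refl _))

/-- feasible weights -/
structure Feas (β : ℕ) (X : Finset (Fin n)) (cor u : Finset (Fin n) → ℕ) (w : Fin n → ℕ) :
    Prop where
  supp : ∀ a, w a ≠ 0 → a ∈ X
  up : ∀ A, A ⊆ X → wt w A ≤ β * u A
  low : ∀ S, S ⊆ X → 1 ≤ cor S → β * cor S + 1 ≤ wt w S
  tot : wt w X ≤ X.card

variable {u : Finset (Fin n) → ℕ} {B : Finset (Fin n)}

theorem utight (hu : ∀ A A', u (A ∪ A') + u (A ∩ A') ≤ u A + u A') (hw : Feas β X cor u w)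
    {A A' : Finset (Fin n)} (hA : A ⊆ X) (hA' : A' ⊆ X) (tA : wt w A = β * u A)
    (tA' : wt w A' = β * u A') :
    wt w (A ∪ A') = β * u (A ∪ A') ∧ wt w (A ∩ A') = β * u (A ∩ A') := by
  have h1 := wt_union_inter w A A'
  have h2 := hw.up _ (union_subset hA hA')
  have h3 := hw.up _ ((inter_subset_left : A ∩ A' ⊆ A).trans hA)
  have h4 := Nat.mul_le_mul_left β (hu A A')
  rw [mul_add, mul_add] at h4
  omega

theorem exists_tight (hw : Feas β X cor u w)
    (hmin : ∀ w', Feas β X cor u w' → wt w (X \ B) ≤ wt w' (X \ B)) {y : Fin n}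
    (hy : y ∈ X \ B) (h0 : w y ≠ 0) : ∃ S, S ⊆ X ∧ Tight β w cor S ∧ y ∈ S := by
  by_contra hc
  push Not at hc
  have h1 : Feas β X cor u (dec w y) := by
    refine ⟨fun a ha => hw.supp a fun e => ha (by simp [dec, e]), fun A hA => ?_,
      fun S hS h1 => ?_, ?_⟩
    · have := wt_dec h0 A
      have := hw.up A hA
      omega
    · have h2 := wt_dec h0 S
      have h3 := hw.low S hS h1
      split_ifs at h2 with h4
      · have h5 : wt w S ≠ β * cor S + 1 := fun e => hc S hS ⟨h1, e⟩ h4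
        omega
      · omega
    · have := wt_dec h0 X
      have := hw.tot
      omega
  have h2 := hmin _ h1
  have h3 := wt_dec h0 (X \ B)
  rw [if_pos hy] at h3
  omega

theorem exists_block (hB : B ⊆ X) (hu0 : u ∅ = 0)
    (hu : ∀ A A', u (A ∪ A') + u (A ∩ A') ≤ u A + u A') (hw : Feas β X cor u w)
    (hmin : ∀ w', Feas β X cor u w' → wt w (X \ B) ≤ wt w' (X \ B)) {y : Fin n}
    (hy : y ∈ X \ B) (h0 : w y ≠ 0) {S : Finset (Fin n)}
    (hS : ∀ T, T ⊆ X → Tight β w cor T → y ∈ T → S ⊆ T) :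
    ∃ G, G ⊆ X ∧ wt w G = β * u G ∧ B ∩ S ⊆ G ∧ y ∉ G := by
  have one : ∀ b ∈ B ∩ S, ∃ A, A ⊆ X ∧ wt w A = β * u A ∧ b ∈ A ∧ y ∉ A := by
    intro b hb
    obtain ⟨hbB, hbS⟩ := mem_inter.1 hb
    by_contra hc
    push Not at hc
    have h1 : Feas β X cor u (inc (dec w y) b) := by
      refine ⟨fun a ha => ?_, fun A hA => ?_, fun T hT h1 => ?_, ?_⟩
      · by_cases e : a = b
        · exact e ▸ hB hbB
        · exact hw.supp a fun e' => ha (by simp [inc, dec, e, e'])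
      · have h2 := wt_dec h0 A
        have h3 := hw.up A hA
        have h4 := hc A hA
        rw [wt_inc]
        by_cases h5 : y ∈ A <;> by_cases h6 : b ∈ A <;>
          simp only [h5, h6, if_true, if_false] at h2 ⊢
        · omega
        · omega
        · have h7 : wt w A ≠ β * u A := fun e => h5 (h4 e h6)
          omega
        · omega
      · have h2 := wt_dec h0 T
        have h3 := hw.low T hT h1
        rw [wt_inc]
        by_cases h5 : y ∈ T <;> by_cases h6 : b ∈ T <;>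
          simp only [h5, h6, if_true, if_false] at h2 ⊢
        · omega
        · have h7 : wt w T ≠ β * cor T + 1 := fun e => h6 (hS T hT ⟨h1, e⟩ h5 hbS)
          omega
        · omega
        · omega
      · have h2 := wt_dec h0 X
        have h3 := hw.tot
        rw [wt_inc, if_pos (hB hbB)]
        rw [if_pos (mem_sdiff.1 hy).1] at h2
        omega
    have h2 := hmin _ h1
    have h3 := wt_dec h0 (X \ B)
    rw [if_pos hy] at h3
    rw [wt_inc, if_neg (fun h => (mem_sdiff.1 h).2 hbB)] at h2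
    omega
  have key : ∀ C : Finset (Fin n), C ⊆ B ∩ S →
      ∃ G, G ⊆ X ∧ wt w G = β * u G ∧ C ⊆ G ∧ y ∉ G := by
    intro C
    induction C using Finset.induction_on with
    | empty => exact fun _ => ⟨∅, empty_subset _, by simp [wt_empty, hu0], Subset.refl _, by simp⟩
    | insert b C _ ih =>
      intro hC
      obtain ⟨G, h1, h2, h3, h4⟩ := ih ((subset_insert _ _).trans hC)
      obtain ⟨A, a1, a2, a3, a4⟩ := one b (hC (mem_insert_self _ _))
      refine ⟨A ∪ G, union_subset a1 h1, (utight hu hw a1 h1 a2 h2).1,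
        insert_subset (mem_union_left _ a3) (h3.trans subset_union_right), fun h => ?_⟩
      rcases mem_union.1 h with h | h
      · exact a4 h
      · exact h4 h
  exact key _ (Subset.refl _)

theorem main (h : SplitStmt) (hβ : 2 ≤ β) (hB : B ⊆ X)
    (hmono : ∀ S T, S ⊆ T → T ⊆ X → cor S ≤ cor T)
    (hsup : ∀ S T, S ⊆ X → T ⊆ X → cor S + cor T ≤ cor (S ∪ T) + cor (S ∩ T)) (hu0 : u ∅ = 0)
    (hu : ∀ A A', u (A ∪ A') + u (A ∩ A') ≤ u A + u A')
    (hkey : ∀ S G, G ⊆ X → B ∩ S ⊆ G → cor S + u (G \ S) ≤ u G) (hBc : B.card = cor X)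
    (hw : Feas β X cor u w)
    (hmin : ∀ w', Feas β X cor u w' → wt w (X \ B) ≤ wt w' (X \ B)) :
    β * (X.filter fun a => w a ≠ 0).card ≤ 3 * X.card := by
  set P : Fin n → Prop := fun y => ∃ S T, S ⊆ X ∧ T ⊆ X ∧ Tight β w cor S ∧ Tight β w cor T ∧
      y ∈ S ∧ y ∈ T ∧ ¬ Tight β w cor (S ∩ T) with hP
  set YB := (X \ B).filter fun y => w y ≠ 0 ∧ P y with hYB
  set YA := (X \ B).filter fun y => w y ≠ 0 ∧ ¬ P y with hYA
  have hcX : β * cor X ≤ X.card := by
    by_cases h1 : 1 ≤ cor X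
    · have := hw.low X (Subset.refl _) h1
      have := hw.tot
      omega
    · have h2 : cor X = 0 := by omega
      simp [h2]
  have h1 : β * YB.card ≤ X.card :=
    (caseB h hβ hmono hsup hw.low YB fun y hy => (mem_filter.1 hy).2).trans hw.tot
  have hex : ∀ y, ∃ S, y ∈ YA → w y ≠ 0 ∧ y ∈ S ∧ S ⊆ X ∧ Tight β w cor S ∧
      ∀ T, T ⊆ X → Tight β w cor T → y ∈ T → S ⊆ T := by
    intro y
    by_cases hy : y ∈ YA
    · obtain ⟨hy1, hy2, hy3⟩ := mem_filter.1 hy
      obtain ⟨S₀, hS₀⟩ := exists_tight hw hmin hy1 hy2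
      obtain ⟨S, hS, hSm⟩ := exists_min_image
        (univ.filter fun S => S ⊆ X ∧ Tight β w cor S ∧ y ∈ S) card
        ⟨S₀, mem_filter.2 ⟨mem_univ _, hS₀⟩⟩
      obtain ⟨s1, s2, s3⟩ := (mem_filter.1 hS).2
      refine ⟨S, fun _ => ⟨hy2, s3, s1, s2, fun T t1 t2 t3 => ?_⟩⟩
      have h2 : Tight β w cor (S ∩ T) := by
        by_contra h3
        exact hy3 ⟨S, T, s1, t1, s2, t2, s3, t3, h3⟩
      have h3 := hSm (S ∩ T) (mem_filter.2 ⟨mem_univ _, inter_subset_left.trans s1, h2,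
        mem_inter.2 ⟨s3, t3⟩⟩)
      exact inter_eq_left.1 (eq_of_subset_of_card_le inter_subset_left h3)
    · exact ⟨∅, fun h => absurd h hy⟩
  choose Sy hSy using hex
  have h2 : YA.card ≤ cor X := by
    refine caseA hmono hsup hw.low YA Sy hSy fun y hy y' hy' hne e => ?_
    obtain ⟨a0, a1, a2, a3, a4⟩ := hSy y hy
    obtain ⟨b0, b1, -, -, b4⟩ := hSy y' hy'
    obtain ⟨G, g1, g2, g3, g4⟩ := exists_block hB hu0 hu hw hmin (mem_filter.1 hy).1 a0 a4
    obtain ⟨G', k1, k2, k3, k4⟩ := exists_block hB hu0 hu hw hmin (mem_filter.1 hy').1 b0 b4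
    rw [← e] at k3 b1
    have t := (utight hu hw g1 k1 g2 k2).2
    have c1 := Nat.mul_le_mul_left β 
      (hkey (Sy y) (G ∩ G') (inter_subset_left.trans g1) (subset_inter g3 k3))
    rw [mul_add] at c1
    have c2 := hw.up ((G ∩ G') \ Sy y) (sdiff_subset.trans (inter_subset_left.trans g1))
    have c3 := wt_sdiff_add_inter w (G ∩ G') (Sy y)
    have c4 := wt_sdiff_add_inter w (Sy y) (G ∩ G')
    rw [inter_comm (Sy y)] at c4
    have c5 := a3.2
    have c6 := two_le_wt w (A := Sy y \ (G ∩ G'))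
      (mem_sdiff.2 ⟨a1, fun h => g4 (mem_inter.1 h).1⟩)
      (mem_sdiff.2 ⟨b1, fun h => k4 (mem_inter.1 h).2⟩) hne
    omega
  have h3 : (X.filter fun a => w a ≠ 0) ⊆ B ∪ (YA ∪ YB) := fun a ha => by
    obtain ⟨ha1, ha2⟩ := mem_filter.1 ha
    by_cases hb : a ∈ B
    · exact mem_union_left _ hb
    · refine mem_union_right _ ?_
      by_cases hp : P a
      · exact mem_union_right _ (mem_filter.2 ⟨mem_sdiff.2 ⟨ha1, hb⟩, ha2, hp⟩)
      · exact mem_union_left _ (mem_filter.2 ⟨mem_sdiff.2 ⟨ha1, hb⟩, ha2, hp⟩)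
  have h4 : (X.filter fun a => w a ≠ 0).card ≤ cor X + (cor X + YB.card) := by
    refine (card_le_card h3).trans ((card_union_le _ _).trans ?_)
    have := card_union_le YA YB
    omega
  have h5 := Nat.mul_le_mul_left β h4
  rw [mul_add, mul_add] at h5
  omega

end abstract

end Sparse

open Sparse in
theorem sparse (h : SplitStmt) : SparseStmt := by
  intro n β ρ X D F hβ hU hL
  obtain ⟨B, hB, hBc, -, hBcl⟩ := ρ.exists_basis X (D ∪ F)
  have h0 : Feas β X (fun S => ρ.rel X (X \ S ∪ (D ∪ F))) (fun A => ρ.rel A D) (ind X) := by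
    refine ⟨fun a ha => ?_, fun A hA => ?_, fun S hS h1 => ?_, ?_⟩
    · by_contra hc
      exact ha (by simp [ind, hc])
    · rw [wt_ind, inter_eq_left.2 hA]
      exact hU A hA
    · rw [wt_ind, inter_eq_left.2 hS]
      exact hL S hS h1
    · rw [wt_ind, inter_self]
  obtain ⟨w, hw, hmin⟩ := (measure fun w : Fin n → ℕ => wt w (X \ B)).wf.has_min
    {w | Feas β X (fun S => ρ.rel X (X \ S ∪ (D ∪ F))) (fun A => ρ.rel A D) w} ⟨_, h0⟩
  refine ⟨w, hw.supp, hw.up, hw.low, main h hβ hB ?_ ?_ (ρ.rel_empty_left D)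
    (fun A A' => ρ.rel_submod A A' D) ?_ ?_ hw fun w' hw' => not_lt.1 (hmin w' hw')⟩
  · exact fun S T hST _ => ρ.rel_anti_right' X
      (union_subset_union (sdiff_subset_sdiff (Subset.refl _) hST) (Subset.refl _))
  · intro S T _ _
    have e : ∀ S, ρ.rel X (X \ S ∪ (D ∪ F)) + ρ.r (X \ S ∪ (D ∪ F)) = ρ.r (X ∪ (D ∪ F)) :=
      fun S => by rw [ρ.rel_add, ← union_assoc, union_eq_left.2 (sdiff_subset : X \ S ⊆ X)]
    have h1 := ρ.submod (X \ S ∪ (D ∪ F)) (X \ T ∪ (D ∪ F))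
    have e1 : X \ S ∪ (D ∪ F) ∪ (X \ T ∪ (D ∪ F)) = X \ (S ∩ T) ∪ (D ∪ F) := by
      ext x; simp only [mem_union, mem_sdiff, mem_inter]; tauto
    have e2 : (X \ S ∪ (D ∪ F)) ∩ (X \ T ∪ (D ∪ F)) = X \ (S ∪ T) ∪ (D ∪ F) := by
      ext x; simp only [mem_union, mem_sdiff, mem_inter]; tauto
    rw [e1, e2] at h1
    have := e S
    have := e T
    have := e (S ∪ T)
    have := e (S ∩ T)
    omega
  · intro S G hGX hG
    have h1 := ρ.rel_chain G (G \ S) D
    rw [union_eq_left.2 (sdiff_subset : G \ S ⊆ G)] at h1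
    have h2 : ρ.rel X (X \ S ∪ (D ∪ F)) ≤ ρ.rel G (X \ S ∪ (D ∪ F)) := by
      refine ρ.rel_mono_left (hBcl.trans (ρ.cl_mono fun a ha => ?_))
      rcases mem_union.1 ha with ha | ha
      · by_cases haS : a ∈ S
        · exact mem_union_left _ (hG (mem_inter.2 ⟨ha, haS⟩))
        · exact mem_union_right _ (mem_union_left _ (mem_sdiff.2 ⟨hB ha, haS⟩))
      · exact mem_union_right _ (mem_union_right _ ha)
    have h3 : ρ.rel G (X \ S ∪ (D ∪ F)) ≤ ρ.rel G (G \ S ∪ D) :=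
      ρ.rel_anti_right' G
        (union_subset_union (sdiff_subset_sdiff hGX (Subset.refl _)) subset_union_left)
    omega
  · rw [hBc, sdiff_self]
    simp

end Crest.Agent.R305
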