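import Crest.Agent.R305.Dens

/-!
# Row 305: few elements are the intersection of two tight sets
-/

set_option autoImplicit false

namespace Crest.Agent.R305

open Finset
open scoped Classical

variable {n : ℕ}

/-- The hypotheses of `SplitStmt`. -/
structure SplitHyp (β : ℕ) (X : Finset (Fin n)) (w : Fin n → ℕ) (cor : Finset (Fin n) → ℕ) :
    Prop where
  two : 2 ≤ β
  pos : ∀ x ∈ X, 1 ≤ w x
  mono : ∀ S T, S ⊆ T → T ⊆ X → cor S ≤ cor T
  sup : ∀ S T, S ⊆ X → T ⊆ X → cor S + cor T ≤ cor (S ∪ T) + cor (S ∩ T)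
  low : ∀ S, S ⊆ X → 1 ≤ cor S → β * cor S + 1 ≤ wt w S

/-- The counted elements of `K`. -/
noncomputable def splitCnt (β : ℕ) (w : Fin n → ℕ) (cor : Finset (Fin n) → ℕ)
    (K : Finset (Fin n)) : Finset (Fin n) :=
  K.filter fun y => w y = 1 ∧ ∃ S T, S ⊆ K ∧ T ⊆ K ∧ Tight β w cor S ∧ Tight β w cor T ∧
    S ∩ T = {y}

theorem split_mem {β : ℕ} {w : Fin n → ℕ} {cor : Finset (Fin n) → ℕ} {K : Finset (Fin n)}
    {y : Fin n} : y ∈ splitCnt β w cor K ↔ y ∈ K ∧ w y = 1 ∧ ∃ S T, S ⊆ K ∧ T ⊆ K ∧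
      Tight β w cor S ∧ Tight β w cor T ∧ S ∩ T = {y} := by
  unfold splitCnt
  rw [mem_filter]

theorem split_wt_singleton (w : Fin n → ℕ) (y : Fin n) : wt w {y} = w y := sum_singleton _ _

theorem split_wt_sdiff (w : Fin n → ℕ) {A B : Finset (Fin n)} (h : B ⊆ A) :
    wt w (A \ B) + wt w B = wt w A := sum_sdiff h

theorem split_tight_wt {β : ℕ} {w : Fin n → ℕ} {cor : Finset (Fin n) → ℕ} {S : Finset (Fin n)}
    (h : Tight β w cor S) : β + 1 ≤ wt w S := by
  rw [h.2]
  have := Nat.mul_le_mul_left β h.1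
  omega

theorem split_tight_nonempty {β : ℕ} {w : Fin n → ℕ} {cor : Finset (Fin n) → ℕ}
    {S : Finset (Fin n)} (h : Tight β w cor S) : S.Nonempty := by
  rcases S.eq_empty_or_nonempty with rfl | h'
  · have := split_tight_wt h
    rw [wt_empty] at this
    omega
  · exact h'

namespace SplitHyp

variable {β : ℕ} {X : Finset (Fin n)} {w : Fin n → ℕ} {cor : Finset (Fin n) → ℕ}

theorem card_le (H : SplitHyp β X w cor) {S : Finset (Fin n)} (hS : S ⊆ X) : S.card ≤ wt w S := by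
  rw [card_eq_sum_ones]
  exact sum_le_sum fun x hx => H.pos x (hS hx)

theorem not_single (H : SplitHyp β X w cor) {y : Fin n} (hy : w y = 1) :
    ¬ Tight β w cor {y} := fun h => by
  have h1 := split_tight_wt h
  rw [split_wt_singleton, hy] at h1
  have := H.two
  omega

theorem union_inter (H : SplitHyp β X w cor) {S T : Finset (Fin n)} (hS : S ⊆ X) (hT : T ⊆ X)
    (tS : Tight β w cor S) (tT : Tight β w cor T) (hne : (S ∩ T).Nonempty) :
    Tight β w cor (S ∪ T) ∧ (Tight β w cor (S ∩ T) ∨ ∃ y, S ∩ T = {y} ∧ w y = 1) := by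
  have hU : S ∪ T ⊆ X := union_subset hS hT
  have hI : S ∩ T ⊆ X := inter_subset_left.trans hS
  have h1 := wt_union_inter w S T
  have h2 := Nat.mul_le_mul_left β (H.sup S T hS hT)
  have h3 : 1 ≤ cor (S ∪ T) := tS.1.trans (H.mono _ _ subset_union_left hU)
  have h4 := H.low _ hU h3
  rw [tS.2, tT.2] at h1
  rw [mul_add, mul_add] at h2
  rcases Nat.eq_zero_or_pos (cor (S ∩ T)) with h0 | h0
  · rw [h0, mul_zero] at h2
    have h5 := H.card_le hI
    have h6 := hne.card_pos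
    refine ⟨⟨h3, by omega⟩, Or.inr ?_⟩
    obtain ⟨y, hy⟩ := card_eq_one.1 (show (S ∩ T).card = 1 by omega)
    refine ⟨y, hy, ?_⟩
    rw [← split_wt_singleton w y, ← hy]
    omega
  · have h5 := H.low _ hI h0
    exact ⟨⟨h3, by omega⟩, Or.inl ⟨h0, by omega⟩⟩

/-- The case of a set that is not tight. -/
theorem loose (H : SplitHyp β X w cor) {K : Finset (Fin n)} (hK : K ⊆ X)
    (hnt : ¬ Tight β w cor K) (hf : 1 ≤ (splitCnt β w cor K).card) :
    ∃ K1, K1 ⊂ K ∧ Tight β w cor K1 ∧ (splitCnt β w cor K).card ≤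
      (splitCnt β w cor K1).card + (splitCnt β w cor (K \ K1)).card := by
  obtain ⟨y0, hy0⟩ := card_pos.1 hf
  obtain ⟨-, -, S0, -, hS0, -, tS0, -⟩ := split_mem.1 hy0
  obtain ⟨K1, hK1, hmax⟩ := exists_max_image (K.powerset.filter fun S => Tight β w cor S) card
    ⟨S0, mem_filter.2 ⟨mem_powerset.2 hS0, tS0⟩⟩
  obtain ⟨hK1K, tK1⟩ := mem_filter.1 hK1
  rw [mem_powerset] at hK1K
  have hin : ∀ S, S ⊆ K → Tight β w cor S → ∀ y, y ∈ S → y ∈ K1 → S ⊆ K1 := by
    intro S hS tS y hyS hy1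
    have t := (H.union_inter (hS.trans hK) (hK1K.trans hK) tS tK1
      ⟨y, mem_inter.2 ⟨hyS, hy1⟩⟩).1
    have hc := hmax _ (mem_filter.2 ⟨mem_powerset.2 (union_subset hS hK1K), t⟩)
    have := eq_of_subset_of_card_le (subset_union_right (s₁ := S) (s₂ := K1)) hc
    rw [this]
    exact subset_union_left
  have hout : ∀ S, S ⊆ K → Tight β w cor S → ∀ y, y ∈ S → y ∉ K1 → S ⊆ K \ K1 := by
    intro S hS tS y hyS hy1 z hz
    exact mem_sdiff.2 ⟨hS hz, fun hz1 => hy1 (hin S hS tS z hz hz1 hyS)⟩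
  refine ⟨K1, Finset.ssubset_iff_subset_ne.2 ⟨hK1K, fun h => hnt (h ▸ tK1)⟩, tK1, ?_⟩
  refine le_trans (card_le_card ?_) (card_union_le _ _)
  intro y hy
  obtain ⟨hyK, hw, S, T, hS, hT, tS, tT, hST⟩ := split_mem.1 hy
  have hyST : y ∈ S ∩ T := hST ▸ mem_singleton_self y
  obtain ⟨hyS, hyT⟩ := mem_inter.1 hyST
  by_cases hy1 : y ∈ K1
  · exact mem_union_left _ (split_mem.2 ⟨hy1, hw, S, T, hin S hS tS y hyS hy1,
      hin T hT tT y hyT hy1, tS, tT, hST⟩)
  · exact mem_union_right _ (split_mem.2 ⟨mem_sdiff.2 ⟨hyK, hy1⟩, hw, S, T,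
      hout S hS tS y hyS hy1, hout T hT tT y hyT hy1, tS, tT, hST⟩)

/-- A counted element in the cover/in position. -/
theorem cover_in (H : SplitHyp β X w cor) {K K1 S T : Finset (Fin n)} {y : Fin n} (hK : K ⊆ X)
    (hK1 : K1 ⊆ K) (tK1 : Tight β w cor K1) (hS : S ⊆ K) (tS : Tight β w cor S)
    (tT : Tight β w cor T) (hST : S ∩ T = {y}) (hw : w y = 1) (hc : K \ K1 ⊆ S) (hi : T ⊆ K1) :
    y ∈ splitCnt β w cor K1 ∨ Tight β w cor (insert y (K \ K1)) := by
  have hyST : y ∈ S ∩ T := hST ▸ mem_singleton_self y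
  obtain ⟨hyS, hyT⟩ := mem_inter.1 hyST
  have hy : y ∈ S ∩ K1 := mem_inter.2 ⟨hyS, hi hyT⟩
  rcases (H.union_inter (hS.trans hK) (hK1.trans hK) tS tK1 ⟨y, hy⟩).2 with t | ⟨z, hz, -⟩
  · refine Or.inl (split_mem.2 ⟨hi hyT, hw, S ∩ K1, T, inter_subset_right, hi, t, tT, ?_⟩)
    rw [inter_assoc, inter_eq_right.2 hi, hST]
  · right
    have hyz : y = z := mem_singleton.1 (hz ▸ hy)
    subst hyz
    have : S = insert y (K \ K1) := by
      refine Subset.antisymm (fun x hx => ?_) (insert_subset hyS hc)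
      by_cases hx1 : x ∈ K1
      · have : x ∈ S ∩ K1 := mem_inter.2 ⟨hx, hx1⟩
        rw [hz, mem_singleton] at this
        rw [this]
        exact mem_insert_self _ _
      · exact mem_insert_of_mem (mem_sdiff.2 ⟨hS hx, hx1⟩)
    exact this ▸ tS

/-- The case of a tight set. -/
theorem tight (H : SplitHyp β X w cor) {K : Finset (Fin n)} (hK : K ⊆ X)
    (tK : Tight β w cor K) (hf : 1 ≤ (splitCnt β w cor K).card) :
    ∃ K1, K1 ⊂ K ∧ Tight β w cor K1 ∧ β ≤ wt w (K \ K1) ∧ (splitCnt β w cor K).card ≤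
      (splitCnt β w cor K1).card + (splitCnt β w cor (K \ K1)).card + 1 := by
  obtain ⟨y0, hy0⟩ := card_pos.1 hf
  obtain ⟨-, hw0, S0, T0, hS0, hT0, tS0, tT0, hST0⟩ := split_mem.1 hy0
  have hne0 : S0 ≠ K := by
    rintro rfl
    rw [inter_eq_right.2 hT0] at hST0
    exact H.not_single hw0 (hST0 ▸ tT0)
  obtain ⟨K1, hK1, hmax⟩ := exists_max_image
    (K.powerset.filter fun S => Tight β w cor S ∧ S ≠ K) card
    ⟨S0, mem_filter.2 ⟨mem_powerset.2 hS0, tS0, hne0⟩⟩
  obtain ⟨hK1K, tK1, hne⟩ := mem_filter.1 hK1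
  rw [mem_powerset] at hK1K
  have hss : K1 ⊂ K := Finset.ssubset_iff_subset_ne.2 ⟨hK1K, hne⟩
  have hLne : (K \ K1).Nonempty := sdiff_nonempty.2 hss.2
  have hLX : K \ K1 ⊆ X := sdiff_subset.trans hK
  obtain ⟨c, hc⟩ := Nat.exists_eq_add_of_le (H.mono _ _ hK1K hK)
  have hL : wt w (K \ K1) = β * c := by
    have h1 := split_wt_sdiff w hK1K
    rw [tK.2, tK1.2, hc, mul_add] at h1
    omega
  have hβ : β ≤ wt w (K \ K1) := by
    have h1 := H.card_le hLX
    have h2 := hLne.card_pos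
    rw [hL] at h1 ⊢
    rcases Nat.eq_zero_or_pos c with h0 | h0
    · rw [h0, mul_zero] at h1
      omega
    · exact Nat.le_mul_of_pos_right β h0
  have hsing : ∀ y, w y = 1 → ¬ K \ K1 ⊆ {y} := fun y hy h => by
    have h1 := wt_mono w h
    rw [split_wt_singleton, hy] at h1
    have := H.two
    omega
  have hin : ∀ S, S ⊆ K → Tight β w cor S → ∀ y, y ∈ S → y ∈ K1 → S ⊆ K1 ∨ K \ K1 ⊆ S := by
    intro S hS tS y hyS hy1
    have t := (H.union_inter (hS.trans hK) (hK1K.trans hK) tS tK1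
      ⟨y, mem_inter.2 ⟨hyS, hy1⟩⟩).1
    by_cases hU : S ∪ K1 = K
    · right
      intro z hz
      obtain ⟨hz1, hz2⟩ := mem_sdiff.1 hz
      rw [← hU] at hz1
      exact (mem_union.1 hz1).resolve_right hz2
    · left
      have hc := hmax _ (mem_filter.2 ⟨mem_powerset.2 (union_subset hS hK1K), t, hU⟩)
      have := eq_of_subset_of_card_le (subset_union_right (s₁ := S) (s₂ := K1)) hc
      rw [this]
      exact subset_union_left
  have hout : ∀ S, S ⊆ K → Tight β w cor S → ∀ y, y ∈ S → y ∉ K1 →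
      S ⊆ K \ K1 ∨ K \ K1 ⊆ S := by
    intro S hS tS y hyS hy1
    by_cases hcov : K \ K1 ⊆ S
    · exact Or.inr hcov
    · refine Or.inl fun z hz => mem_sdiff.2 ⟨hS hz, fun hz1 => ?_⟩
      exact hy1 ((hin S hS tS z hz hz1).resolve_right hcov hyS)
  have hZ : (univ.filter fun y => Tight β w cor (insert y (K \ K1)) ∧ y ∈ K1).card ≤ 1 := by
    refine card_le_one.2 fun a ha b hb => ?_
    obtain ⟨ta, ha1⟩ := (mem_filter.1 ha).2
    obtain ⟨tb, hb1⟩ := (mem_filter.1 hb).2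
    by_contra hab
    have hI : insert a (K \ K1) ∩ insert b (K \ K1) = K \ K1 := by
      refine Subset.antisymm (fun x hx => ?_)
        (subset_inter (subset_insert _ _) (subset_insert _ _))
      obtain ⟨h1, h2⟩ := mem_inter.1 hx
      rcases mem_insert.1 h1 with rfl | h1
      · exact (mem_insert.1 h2).resolve_left hab
      · exact h1
    have := (H.union_inter (insert_subset (hK (hK1K ha1)) hLX) (insert_subset (hK (hK1K hb1)) hLX)
      ta tb (hI.symm ▸ hLne)).2
    rw [hI] at this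
    rcases this with t | ⟨y, hy, hw⟩
    · have h1 := t.2
      rw [hL] at h1
      have h2 : β ∣ β * cor (K \ K1) + 1 := h1 ▸ dvd_mul_right β c
      have h3 := Nat.le_of_dvd one_pos ((Nat.dvd_add_right (dvd_mul_right β _)).1 h2)
      have := H.two
      omega
    · exact hsing y hw hy.subset
  refine ⟨K1, hss, tK1, hβ, ?_⟩
  refine le_trans (card_le_card (t := (splitCnt β w cor K1 ∪ splitCnt β w cor (K \ K1)) ∪
    univ.filter fun y => Tight β w cor (insert y (K \ K1)) ∧ y ∈ K1) ?_)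
    ((card_union_le _ _).trans (add_le_add (card_union_le _ _) hZ))
  intro y hy
  obtain ⟨hyK, hw, S, T, hS, hT, tS, tT, hST⟩ := split_mem.1 hy
  have hyST : y ∈ S ∩ T := hST ▸ mem_singleton_self y
  obtain ⟨hyS, hyT⟩ := mem_inter.1 hyST
  have hcc : K \ K1 ⊆ S → ¬ K \ K1 ⊆ T := fun h1 h2 =>
    hsing y hw (hST ▸ subset_inter h1 h2)
  by_cases hy1 : y ∈ K1
  · have key : y ∈ splitCnt β w cor K1 ∨ Tight β w cor (insert y (K \ K1)) := by
      rcases hin S hS tS y hyS hy1 with h1 | h1 <;> rcases hin T hT tT y hyT hy1 with h2 | h2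
      · exact Or.inl (split_mem.2 ⟨hy1, hw, S, T, h1, h2, tS, tT, hST⟩)
      · exact H.cover_in hK hK1K tK1 hT tT tS (by rw [inter_comm, hST]) hw h2 h1
      · exact H.cover_in hK hK1K tK1 hS tS tT hST hw h1 h2
      · exact absurd h2 (hcc h1)
    rcases key with h | h
    · exact mem_union_left _ (mem_union_left _ h)
    · exact mem_union_right _ (mem_filter.2 ⟨mem_univ _, h, hy1⟩)
  · refine mem_union_left _ (mem_union_right _ ?_)
    rcases hout S hS tS y hyS hy1 with h1 | h1 <;> rcases hout T hT tT y hyT hy1 with h2 | h2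
    · exact split_mem.2 ⟨mem_sdiff.2 ⟨hyK, hy1⟩, hw, S, T, h1, h2, tS, tT, hST⟩
    · rw [inter_eq_left.2 (h1.trans h2)] at hST
      exact absurd (hST ▸ tS) (H.not_single hw)
    · rw [inter_eq_right.2 (h2.trans h1)] at hST
      exact absurd (hST ▸ tT) (H.not_single hw)
    · exact absurd h2 (hcc h1)

theorem main (H : SplitHyp β X w cor) (K : Finset (Fin n)) : K ⊆ X →
    (1 ≤ (splitCnt β w cor K).card ∨ Tight β w cor K) →
    β * ((splitCnt β w cor K).card + 1) + 1 ≤ wt w K := by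
  induction K using Finset.strongInductionOn with
  | _ K ih =>
  intro hK h
  rcases Nat.eq_zero_or_pos (splitCnt β w cor K).card with h0 | h0
  · have tK : Tight β w cor K := h.resolve_left (by omega)
    rw [h0, zero_add, mul_one]
    exact split_tight_wt tK
  have hL : ∀ K1, K1 ⊂ K → Tight β w cor K1 → K \ K1 ⊂ K := fun K1 h1 t1 =>
    sdiff_ssubset h1.1 (split_tight_nonempty t1)
  by_cases tK : Tight β w cor K
  · obtain ⟨K1, h1, t1, hβ, hle⟩ := H.tight hK tK h0
    have i1 := ih K1 h1 (h1.1.trans hK) (Or.inr t1)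
    have i2 : β * ((splitCnt β w cor (K \ K1)).card + 1) ≤ wt w (K \ K1) := by
      rcases Nat.eq_zero_or_pos (splitCnt β w cor (K \ K1)).card with h2 | h2
      · rw [h2, zero_add, mul_one]
        exact hβ
      · exact (Nat.le_succ _).trans
          (ih _ (hL K1 h1 t1) (sdiff_subset.trans hK) (Or.inl h2))
    have i3 := split_wt_sdiff w h1.1
    have i4 := Nat.mul_le_mul_left β hle
    simp only [mul_add, mul_one] at i1 i2 i4 ⊢
    omega
  · obtain ⟨K1, h1, t1, hle⟩ := H.loose hK tK h0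
    have i1 := ih K1 h1 (h1.1.trans hK) (Or.inr t1)
    have i2 : β * (splitCnt β w cor (K \ K1)).card ≤ wt w (K \ K1) := by
      rcases Nat.eq_zero_or_pos (splitCnt β w cor (K \ K1)).card with h2 | h2
      · rw [h2, mul_zero]
        exact Nat.zero_le _
      · have := ih _ (hL K1 h1 t1) (sdiff_subset.trans hK) (Or.inl h2)
        rw [mul_add] at this
        omega
    have i3 := split_wt_sdiff w h1.1
    have i4 := Nat.mul_le_mul_left β hle
    simp only [mul_add, mul_one] at i1 i4 ⊢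
    omega

end SplitHyp

theorem split : SplitStmt := by
  intro n β X w cor h1 h2 h3 h4 h5
  have H : SplitHyp β X w cor := ⟨h1, h2, h3, h4, h5⟩
  change β * (splitCnt β w cor X).card ≤ wt w X
  rcases Nat.eq_zero_or_pos (splitCnt β w cor X).card with h0 | h0
  · rw [h0, mul_zero]
    exact Nat.zero_le _
  · have := H.main X Subset.rfl (Or.inl h0)
    rw [mul_add] at this
    omega

end Crest.Agent.R305
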