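import Crest.Agent.R305.Dens

/-!
# Row 305: the depth structure (monotonicity, spanning, termination, locality, freshness)
-/

set_option autoImplicit false

namespace Crest.Agent.R305

open Finset
open scoped Classical

variable {n : ℕ}

section Basic

variable (ρ : Rk n) (E : Finset (Fin n)) (c : Fin n → K) (σ1 : Fin n → Bool) (ℓ : Fin n → Fin 3)

theorem Boost_subset (i : K) :
    Boost ρ E c σ1 i ⊆ (E.filter fun s => c s = i).filter fun s => σ1 s = true :=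
  ρ.basis_subset _

theorem mem_of_mem_Boost {i : K} {s : Fin n} (h : s ∈ Boost ρ E c σ1 i) :
    s ∈ E ∧ c s = i ∧ σ1 s = true := by
  have := Boost_subset ρ E c σ1 i h
  simp only [mem_filter] at this
  exact ⟨this.1.1, this.1.2, this.2⟩

theorem r_Boost (i : K) : ρ.r (Boost ρ E c σ1 i) = (Boost ρ E c σ1 i).card :=
  ρ.r_of_subset_basis (Subset.refl _)

theorem subset_Dop (i : K) (F : Finset (Fin n)) : F ⊆ Dop ρ E c σ1 i F := ρ.subset_dens _ _ _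

theorem cl_Dop (i : K) (F : Finset (Fin n)) : ρ.cl (Dop ρ E c σ1 i F) = Dop ρ E c σ1 i F :=
  ρ.cl_dens _ _ _

theorem Dop_mono (i : K) {F F' : Finset (Fin n)} (h : F ⊆ ρ.cl F') :
    Dop ρ E c σ1 i F ⊆ Dop ρ E c σ1 i F' := ρ.dens_mono _ _ h

theorem Dop_mono' (i : K) {F F' : Finset (Fin n)} (h : F ⊆ F') :
    Dop ρ E c σ1 i F ⊆ Dop ρ E c σ1 i F' := ρ.dens_mono' _ _ h

theorem cl_Dp (i : K) (k : ℕ) : ρ.cl (Dp ρ E c σ1 ℓ i k) = Dp ρ E c σ1 ℓ i k := cl_Dop _ _ _ _ _ _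

theorem Dp_zero (i : K) : Dp ρ E c σ1 ℓ i 0 = univ := ρ.dens_univ _ _

theorem Dp_succ (i : K) (k : ℕ) :
    Dp ρ E c σ1 ℓ i (k + 1) = Dop ρ E c σ1 i ((G ρ E c σ1 ℓ k).filter fun t => c t < i) := rfl

theorem mem_G_zero {s : Fin n} : s ∈ G ρ E c σ1 ℓ 0 ↔
    s ∈ E ∧ ((σ1 s = false ∧ ℓ s = 0) ∨ s ∈ Boost ρ E c σ1 (c s)) := by
  simp only [G, mem_filter]

theorem mem_G_succ {k : ℕ} {s : Fin n} : s ∈ G ρ E c σ1 ℓ (k + 1) ↔
    s ∈ G ρ E c σ1 ℓ k ∧ s ∈ Dp ρ E c σ1 ℓ (c s) (k + 1) := by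
  rw [Dp_succ]; simp only [G, mem_filter]

theorem G_succ_subset (k : ℕ) : G ρ E c σ1 ℓ (k + 1) ⊆ G ρ E c σ1 ℓ k :=
  fun _ h => ((mem_G_succ ρ E c σ1 ℓ).1 h).1

theorem G_anti {j k : ℕ} (h : j ≤ k) : G ρ E c σ1 ℓ k ⊆ G ρ E c σ1 ℓ j :=
  antitone_nat_of_succ_le (f := G ρ E c σ1 ℓ) (G_succ_subset ρ E c σ1 ℓ) h

theorem Fp_succ_subset (i : K) (k : ℕ) : Fp ρ E c σ1 ℓ i (k + 1) ⊆ Fp ρ E c σ1 ℓ i k := by
  cases k with
  | zero => exact subset_univ _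
  | succ k => exact filter_subset_filter _ (G_succ_subset ρ E c σ1 ℓ k)

theorem Fp_anti (i : K) {j k : ℕ} (h : j ≤ k) : Fp ρ E c σ1 ℓ i k ⊆ Fp ρ E c σ1 ℓ i j :=
  antitone_nat_of_succ_le (f := Fp ρ E c σ1 ℓ i) (Fp_succ_subset ρ E c σ1 ℓ i) h

theorem Dp_anti (i : K) {j k : ℕ} (h : j ≤ k) : Dp ρ E c σ1 ℓ i k ⊆ Dp ρ E c σ1 ℓ i j :=
  Dop_mono' ρ E c σ1 i (Fp_anti ρ E c σ1 ℓ i h)

theorem mem_G {k : ℕ} {s : Fin n} : s ∈ G ρ E c σ1 ℓ k ↔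
    s ∈ G ρ E c σ1 ℓ 0 ∧ s ∈ Dp ρ E c σ1 ℓ (c s) k := by
  induction k with
  | zero => simp [Dp_zero]
  | succ k ih =>
    rw [mem_G_succ, ih]
    exact ⟨fun h => ⟨h.1.1, h.2⟩,
      fun h => ⟨⟨h.1, Dp_anti ρ E c σ1 ℓ _ (Nat.le_succ k) h.2⟩, h.2⟩⟩

theorem mem_H {k : ℕ} {s : Fin n} : s ∈ H ρ E c σ1 ℓ k ↔
    s ∈ E ∧ σ1 s = false ∧ s ∈ Dp ρ E c σ1 ℓ (c s) k := by
  simp only [H, mem_filter]

theorem H_anti {j k : ℕ} (h : j ≤ k) : H ρ E c σ1 ℓ k ⊆ H ρ E c σ1 ℓ j := fun s hs => by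
  rw [mem_H] at hs ⊢
  exact ⟨hs.1, hs.2.1, Dp_anti ρ E c σ1 ℓ _ h hs.2.2⟩

theorem mem_Elig {k : ℕ} {s : Fin n} : s ∈ Elig ρ E c σ1 ℓ k ↔
    s ∈ H ρ E c σ1 ℓ k ∧ s ∉ H ρ E c σ1 ℓ (k + 1) ∧ ℓ s = 1 := by
  simp only [Elig, mem_filter, mem_sdiff, and_assoc]

theorem Elig_disjoint {j k : ℕ} (h : j ≠ k) :
    Disjoint (Elig ρ E c σ1 ℓ j) (Elig ρ E c σ1 ℓ k) := by
  rw [disjoint_left]
  intro s hj hk
  rw [mem_Elig] at hj hk
  rcases lt_or_gt_of_ne h with h | h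
  · exact hj.2.1 (H_anti ρ E c σ1 ℓ h hk.1)
  · exact hk.2.1 (H_anti ρ E c σ1 ℓ h hj.1)

/-- The non-booster generators of level `k` are the `P`-elements of depth at least `k`. -/
theorem mem_G_of_false {k : ℕ} {s : Fin n} (hs : σ1 s = false) :
    s ∈ G ρ E c σ1 ℓ k ↔ s ∈ H ρ E c σ1 ℓ k ∧ ℓ s = 0 := by
  rw [mem_G, mem_G_zero, mem_H]
  constructor
  · rintro ⟨⟨h1, h2 | h2⟩, h3⟩
    · exact ⟨⟨h1, hs, h3⟩, h2.2⟩
    · have := (mem_of_mem_Boost ρ E c σ1 h2).2.2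
      simp [hs] at this
  · rintro ⟨⟨h1, -, h3⟩, h2⟩
    exact ⟨⟨h1, Or.inl ⟨hs, h2⟩⟩, h3⟩

theorem mem_G_of_true {k : ℕ} {s : Fin n} (hs : σ1 s = true) :
    s ∈ G ρ E c σ1 ℓ k ↔ s ∈ Boost ρ E c σ1 (c s) ∧ s ∈ Dp ρ E c σ1 ℓ (c s) k := by
  rw [mem_G, mem_G_zero]
  constructor
  · rintro ⟨⟨-, h2 | h2⟩, h3⟩
    · simp [hs] at h2
    · exact ⟨h2, h3⟩
  · rintro ⟨h1, h3⟩
    exact ⟨⟨(mem_of_mem_Boost ρ E c σ1 h1).1, Or.inr h1⟩, h3⟩

/-- The flat of level `k + 1` is spanned by the generators of level `k`. -/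
theorem Dp_span (i : K) (k : ℕ) :
    Dp ρ E c σ1 ℓ i (k + 1) ⊆ ρ.cl ((G ρ E c σ1 ℓ k).filter fun t => c t ≤ i) := by
  refine (ρ.dens_span _ _ _).trans (ρ.cl_mono (union_subset (fun s hs => ?_) fun s hs => ?_))
  · obtain ⟨h1, h2⟩ := mem_filter.1 hs
    have h3 : s ∈ Boost ρ E c σ1 i := by
      by_contra h; exact h2 (if_neg h)
    obtain ⟨-, h5, h6⟩ := mem_of_mem_Boost ρ E c σ1 h3
    subst h5
    exact mem_filter.2 ⟨(mem_G_of_true ρ E c σ1 ℓ h6).2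
      ⟨h3, Dp_anti ρ E c σ1 ℓ _ (Nat.le_succ k) h1⟩, le_rfl⟩
  · obtain ⟨h1, h2⟩ := mem_filter.1 hs
    exact mem_filter.2 ⟨h1, h2.le⟩

theorem H_span (k : ℕ) : H ρ E c σ1 ℓ (k + 1) ⊆ ρ.cl (G ρ E c σ1 ℓ k) := fun _ hs =>
  ρ.cl_mono (filter_subset _ _) (Dp_span ρ E c σ1 ℓ _ k ((mem_H ρ E c σ1 ℓ).1 hs).2.2)

/-- The lighter elements of depth at least `k` are spanned by the chain of class `i`. -/
theorem H_lt_span (i : K) (k : ℕ) {s : Fin n} (hs : s ∈ H ρ E c σ1 ℓ k) (hi : c s < i) :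
    s ∈ ρ.cl (Fp ρ E c σ1 ℓ i k) := by
  cases k with
  | zero => exact ρ.subset_cl _ (mem_univ _)
  | succ k =>
    refine ρ.cl_mono (fun t ht => ?_) (Dp_span ρ E c σ1 ℓ _ k ((mem_H ρ E c σ1 ℓ).1 hs).2.2)
    exact mem_filter.2 ⟨(mem_filter.1 ht).1, (mem_filter.1 ht).2.trans_lt hi⟩

theorem mem_Xi {i : K} {k : ℕ} {s : Fin n} : s ∈ Xi ρ E c σ1 ℓ i k ↔
    ((s ∈ G ρ E c σ1 ℓ k ∧ σ1 s = true) ∨ (s ∈ H ρ E c σ1 ℓ (k + 1) ∧ ℓ s = 0) ∨
      s ∈ Elig ρ E c σ1 ℓ k) ∧ c s < i := by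
  simp only [Xi, mem_filter, mem_union, or_assoc]

/-- The threat contains the chain two levels up. -/
theorem Fp_subset_Xi (i : K) (k : ℕ) : Fp ρ E c σ1 ℓ i (k + 2) ⊆ Xi ρ E c σ1 ℓ i k := by
  intro s hs
  obtain ⟨h1, h2⟩ := mem_filter.1 hs
  refine (mem_Xi ρ E c σ1 ℓ).2 ⟨?_, h2⟩
  cases h : σ1 s with
  | true => exact Or.inl ⟨G_succ_subset ρ E c σ1 ℓ k h1, rfl⟩
  | false => exact Or.inr (Or.inl ((mem_G_of_false ρ E c σ1 ℓ h).1 h1))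

theorem Dp_subset_Dop_Xi (i : K) (k : ℕ) :
    Dp ρ E c σ1 ℓ i (k + 2) ⊆ Dop ρ E c σ1 i (Xi ρ E c σ1 ℓ i k) :=
  Dop_mono' ρ E c σ1 i (Fp_subset_Xi ρ E c σ1 ℓ i k)

/-- The threat is spanned by the chain at its own level. -/
theorem Xi_subset_cl (i : K) (k : ℕ) : Xi ρ E c σ1 ℓ i k ⊆ ρ.cl (Fp ρ E c σ1 ℓ i k) := by
  intro s hs
  obtain ⟨h1, h2⟩ := (mem_Xi ρ E c σ1 ℓ).1 hs
  rcases h1 with h1 | h1 | h1
  · exact ρ.subset_cl _ (Fp_succ_subset ρ E c σ1 ℓ i k (mem_filter.2 ⟨h1.1, h2⟩))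
  · exact H_lt_span ρ E c σ1 ℓ i k (H_anti ρ E c σ1 ℓ (Nat.le_succ k) h1.1) h2
  · exact H_lt_span ρ E c σ1 ℓ i k ((mem_Elig ρ E c σ1 ℓ).1 h1).1 h2

theorem Dop_Xi_subset_Dp (i : K) (k : ℕ) :
    Dop ρ E c σ1 i (Xi ρ E c σ1 ℓ i k) ⊆ Dp ρ E c σ1 ℓ i k :=
  Dop_mono ρ E c σ1 i (Xi_subset_cl ρ E c σ1 ℓ i k)

omit ρ E σ1 ℓ in
theorem card_lt_lt {s : Fin n} {i : K} (h : c s < i) :
    (univ.filter fun t => c t < c s).card < (univ.filter fun t => c t < i).card := by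
  refine card_lt_card ⟨fun t ht => ?_, fun h' => ?_⟩
  · simp only [mem_filter, mem_univ, true_and] at ht ⊢; exact ht.trans h
  · have := h' (mem_filter.2 ⟨mem_univ s, h⟩)
    simp at this

/-- Termination. -/
theorem not_mem_G (hE : ∀ s ∈ E, s ∉ ρ.cl ∅) (m : ℕ) :
    ∀ s, (univ.filter fun t => c t < c s).card ≤ m → s ∉ G ρ E c σ1 ℓ (m + 1) := by
  induction m with
  | zero =>
    intro s hs h
    have e : (G ρ E c σ1 ℓ 0).filter (fun t => c t < c s) = ∅ :=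
      subset_empty.1 ((filter_subset_filter _ (subset_univ _)).trans
        (card_eq_zero.1 (Nat.le_zero.1 hs)).subset)
    have h1 := ((mem_G_succ ρ E c σ1 ℓ).1 h).2
    rw [Dp_succ, e, Dop, ρ.dens_empty 12 (by norm_num) (r_Boost ρ E c σ1 _)] at h1
    exact hE s ((mem_G_zero ρ E c σ1 ℓ).1 (G_anti ρ E c σ1 ℓ (Nat.zero_le _) h)).1 h1
  | succ m ih =>
    intro s hs h
    have e : (G ρ E c σ1 ℓ (m + 1)).filter (fun t => c t < c s) = ∅ := by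
      refine filter_eq_empty_iff.2 fun t ht hlt => ih t ?_ ht
      have := card_lt_lt c hlt
      omega
    have h1 := ((mem_G_succ ρ E c σ1 ℓ).1 h).2
    rw [Dp_succ, e, Dop, ρ.dens_empty 12 (by norm_num) (r_Boost ρ E c σ1 _)] at h1
    exact hE s ((mem_G_zero ρ E c σ1 ℓ).1 (G_anti ρ E c σ1 ℓ (Nat.zero_le _) h)).1 h1

theorem Fp_last (hE : ∀ s ∈ E, s ∉ ρ.cl ∅) (i : K) : Fp ρ E c σ1 ℓ i (n + 1) = ∅ := by
  refine filter_eq_empty_iff.2 fun s hs _ => ?_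
  have h1 : (univ.filter fun t => c t < c s).card < n := by
    have : (univ.filter fun t => c t < c s).card < (univ : Finset (Fin n)).card :=
      card_lt_card ⟨subset_univ _, fun h' => by simpa using h' (mem_univ s)⟩
    simpa using this
  exact not_mem_G ρ E c σ1 ℓ hE _ s le_rfl (G_anti ρ E c σ1 ℓ h1 hs)

end Basic

theorem Imp_loopless (ρ : Rk n) (c : Fin n → K) (σ0 : Fin n → Bool) :
    ∀ s ∈ Imp ρ c σ0, s ∉ ρ.cl ∅ := fun _ hs h =>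
  (mem_filter.1 hs).2.2 (ρ.cl_mono (empty_subset _) h)

/-! ### Locality: class `i` sees only the bits and labels of lighter elements -/

section Local

variable {ρ : Rk n} {E : Finset (Fin n)} {c : Fin n → K} {σ1 σ1' : Fin n → Bool}
  {ℓ ℓ' : Fin n → Fin 3}

theorem Boost_congr {i : K} (h : ∀ s, c s = i → σ1 s = σ1' s) :
    Boost ρ E c σ1 i = Boost ρ E c σ1' i := by
  unfold Boost
  congr 1
  exact filter_congr fun s hs => by rw [h s (mem_filter.1 hs).2]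

theorem Dop_congr {i : K} (h : ∀ s, c s = i → σ1 s = σ1' s) :
    Dop ρ E c σ1 i = Dop ρ E c σ1' i := by
  funext F; unfold Dop; rw [Boost_congr h]

theorem Fp_local {i : K} (h : ∀ s, c s < i → σ1 s = σ1' s ∧ ℓ s = ℓ' s) (k : ℕ) :
    Fp ρ E c σ1 ℓ i k = Fp ρ E c σ1' ℓ' i k := by
  cases k with
  | zero => rfl
  | succ k =>
    change (G ρ E c σ1 ℓ k).filter (fun t => c t < i) = (G ρ E c σ1' ℓ' k).filter fun t => c t < i
    induction k with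
    | zero =>
      ext s
      simp only [mem_filter, mem_G_zero]
      refine and_congr_left fun hs => ?_
      rw [(h s hs).1, (h s hs).2, Boost_congr fun t ht => (h t (ht.trans_lt hs)).1]
    | succ k ih =>
      ext s
      simp only [mem_filter, mem_G_succ, Dp_succ]
      refine and_congr_left fun hs => ?_
      have e1 : ∀ t, c t < i → (t ∈ G ρ E c σ1 ℓ k ↔ t ∈ G ρ E c σ1' ℓ' k) := fun t ht => by
        have := Finset.ext_iff.1 ih t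
        simpa only [mem_filter, ht, and_true] using this
      have e2 : (G ρ E c σ1 ℓ k).filter (fun t => c t < c s) =
          (G ρ E c σ1' ℓ' k).filter fun t => c t < c s := by
        ext t
        simp only [mem_filter]
        exact and_congr_left fun ht => e1 t (ht.trans hs)
      rw [e1 s hs, e2, Dop_congr fun t ht => (h t (ht.trans_lt hs)).1]

theorem G_local {i : K} (h : ∀ s, c s < i → σ1 s = σ1' s ∧ ℓ s = ℓ' s) (k : ℕ) {s : Fin n}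
    (hs : c s < i) : s ∈ G ρ E c σ1 ℓ k ↔ s ∈ G ρ E c σ1' ℓ' k := by
  have := Finset.ext_iff.1 (Fp_local (ρ := ρ) (E := E) h (k + 1)) s
  simpa only [Fp, mem_filter, hs, and_true] using this

/-- With the same bits, `Dp i k` depends only on the labels of the classes below `i`. -/
theorem Dp_local {i : K} (h : ∀ s, c s < i → ℓ s = ℓ' s) (k : ℕ) :
    Dp ρ E c σ1 ℓ i k = Dp ρ E c σ1 ℓ' i k := by
  unfold Dp
  rw [Fp_local (σ1' := σ1) fun s hs => ⟨rfl, h s hs⟩]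

theorem H_local {i : K} (h : ∀ s, c s < i → ℓ s = ℓ' s) (k : ℕ) {s : Fin n} (hs : c s ≤ i) :
    s ∈ H ρ E c σ1 ℓ k ↔ s ∈ H ρ E c σ1 ℓ' k := by
  rw [mem_H, mem_H, Dp_local fun t ht => h t (ht.trans_le hs)]

theorem Xi_local {i : K} (h : ∀ s, c s < i → ℓ s = ℓ' s) (k : ℕ) :
    Xi ρ E c σ1 ℓ i k = Xi ρ E c σ1 ℓ' i k := by
  ext s
  simp only [mem_Xi, mem_Elig]
  refine and_congr_left fun hs => ?_
  rw [G_local (σ1' := σ1) (fun s hs => ⟨rfl, h s hs⟩) k hs, H_local h k hs.le,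
    H_local h (k + 1) hs.le, h s hs]

/-! ### Freshness: the structure up to level `k` ignores the labels of depth at least `k` -/

theorem Dp_fresh {k : ℕ} (h : ∀ s, s ∉ H ρ E c σ1 ℓ k → ℓ' s = ℓ s) :
    ∀ j ≤ k, ∀ i, Dp ρ E c σ1 ℓ' i j = Dp ρ E c σ1 ℓ i j := by
  intro j
  induction j with
  | zero => intro _ i; rw [Dp_zero, Dp_zero]
  | succ j ih =>
    intro hj
    have ih' := ih (Nat.le_of_succ_le hj)
    have hG : ∀ s, s ∉ H ρ E c σ1 ℓ k → (s ∈ G ρ E c σ1 ℓ' j ↔ s ∈ G ρ E c σ1 ℓ j) :=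
      fun s hs => by rw [mem_G, mem_G ρ E c σ1 ℓ, mem_G_zero, mem_G_zero, ih', h s hs]
    have key : ∀ m, ∀ i, (univ.filter fun t => c t < i).card < m →
        Dp ρ E c σ1 ℓ' i (j + 1) = Dp ρ E c σ1 ℓ i (j + 1) := by
      intro m
      induction m with
      | zero => intro i hi; omega
      | succ m ihm =>
        intro i hi
        refine ρ.dens_congr _ _ (ρ.cl_eq_of_subset (fun s hs => ?_) fun s hs => ?_)
        · obtain ⟨h1, h2⟩ := mem_filter.1 hs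
          by_cases hH : s ∈ H ρ E c σ1 ℓ k
          · exact H_lt_span ρ E c σ1 ℓ i (j + 1) (H_anti ρ E c σ1 ℓ hj hH) h2
          · exact ρ.subset_cl _ (mem_filter.2 ⟨(hG s hH).1 h1, h2⟩)
        · obtain ⟨h1, h2⟩ := mem_filter.1 hs
          by_cases hH : s ∈ H ρ E c σ1 ℓ k
          · refine H_lt_span ρ E c σ1 ℓ' i (j + 1) ?_ h2
            have h3 := H_anti ρ E c σ1 ℓ hj hH
            have h4 := card_lt_lt c h2
            rw [mem_H] at h3 ⊢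
            rwa [ihm (c s) (by omega)]
          · exact ρ.subset_cl _ (mem_filter.2 ⟨(hG s hH).2 h1, h2⟩)
    exact fun i => key _ i (Nat.lt_succ_self _)

theorem H_fresh {k : ℕ} (h : ∀ s, s ∉ H ρ E c σ1 ℓ k → ℓ' s = ℓ s) :
    H ρ E c σ1 ℓ' k = H ρ E c σ1 ℓ k := by
  ext s; rw [mem_H, mem_H, Dp_fresh h k le_rfl]

theorem G_fresh {k : ℕ} (h : ∀ s, s ∉ H ρ E c σ1 ℓ k → ℓ' s = ℓ s) {s : Fin n}
    (hs : σ1 s = true) : s ∈ G ρ E c σ1 ℓ' k ↔ s ∈ G ρ E c σ1 ℓ k := by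
  rw [mem_G_of_true ρ E c σ1 ℓ' hs, mem_G_of_true ρ E c σ1 ℓ hs, Dp_fresh h k le_rfl]

end Local

/-! ### Only the samples matter -/

section Congr

variable {ρ : Rk n} {E E' : Finset (Fin n)} {c c' : Fin n → K} {σ1 : Fin n → Bool}
  {ℓ : Fin n → Fin 3}

theorem Boost_congr' (h : ∀ s, σ1 s = true → (s ∈ E ↔ s ∈ E') ∧ c s = c' s) :
    Boost ρ E c σ1 = Boost ρ E' c' σ1 := by
  funext i
  unfold Boost
  congr 1
  ext s
  simp only [mem_filter]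
  exact and_congr_left fun hs => by rw [(h s hs).1, (h s hs).2]

theorem G_congr' (h : ∀ s, σ1 s = true ∨ ℓ s = 0 → (s ∈ E ↔ s ∈ E') ∧ c s = c' s) (k : ℕ) :
    G ρ E c σ1 ℓ k = G ρ E' c' σ1 ℓ k := by
  have hB : Boost ρ E c σ1 = Boost ρ E' c' σ1 := Boost_congr' fun s hs => h s (Or.inl hs)
  have h0 : ∀ k, ∀ s ∈ G ρ E' c' σ1 ℓ k, c s = c' s := fun k s hs => by
    refine (h s ?_).2
    cases hb : σ1 s with
    | true => exact Or.inl rfl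
    | false => exact Or.inr ((mem_G_of_false ρ E' c' σ1 ℓ hb).1 hs).2
  induction k with
  | zero =>
    ext s
    rw [mem_G_zero, mem_G_zero, hB]
    by_cases hs : σ1 s = true ∨ ℓ s = 0
    · rw [(h s hs).1, (h s hs).2]
    · have e : ∀ i, s ∉ Boost ρ E' c' σ1 i := fun i h' =>
        hs (Or.inl (mem_of_mem_Boost ρ E' c' σ1 h').2.2)
      have e2 : ℓ s ≠ 0 := fun h' => hs (Or.inr h')
      simp [e, e2]
  | succ k ih =>
    ext s
    simp only [mem_G_succ, Dp_succ, Dop, ih, hB]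
    refine and_congr_right fun hs => ?_
    rw [h0 k s hs, filter_congr fun t ht => by rw [h0 k t ht]]

theorem Dp_congr' (h : ∀ s, σ1 s = true ∨ ℓ s = 0 → (s ∈ E ↔ s ∈ E') ∧ c s = c' s) (i : K)
    (k : ℕ) : Dp ρ E c σ1 ℓ i k = Dp ρ E' c' σ1 ℓ i k := by
  have hB : Boost ρ E c σ1 = Boost ρ E' c' σ1 := Boost_congr' fun s hs => h s (Or.inl hs)
  cases k with
  | zero => rw [Dp_zero, Dp_zero]
  | succ k =>
    simp only [Dp_succ, Dop, hB, G_congr' h k]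
    congr 1
    refine filter_congr fun s hs => ?_
    rw [(h s ?_).2]
    cases hb : σ1 s with
    | true => exact Or.inl rfl
    | false => exact Or.inr ((mem_G_of_false ρ E' c' σ1 ℓ hb).1 hs).2

end Congr

end Crest.Agent.R305
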