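import Crest.Agent.R305.Prob

/-!
# Row 305: the value of the rounded instance
-/

set_option autoImplicit false

namespace Crest.Agent.R305

open Finset
open scoped Classical

variable {n : ℕ}

theorem sum_seed (φ : Seed n → ℝ) : ∑ r, sw r * φ r =
    ∑ a : Fin 3, (1 / 3) * Ex q0 fun σ0 => Ex q1 fun σ1 => Ex q2 fun ℓ => φ (a, σ0, σ1, ℓ) := by
  simp only [Fintype.sum_prod_type, Ex, mul_sum, sw]
  exact sum_congr rfl fun a _ => sum_congr rfl fun σ0 _ => sum_congr rfl fun σ1 _ =>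
    sum_congr rfl fun ℓ _ => by ring

theorem sw_nonneg (r : Seed n) : 0 ≤ sw r :=
  mul_nonneg (mul_nonneg (mul_nonneg (by norm_num) (prod_nonneg fun _ _ => q0_nonneg _))
    (prod_nonneg fun _ _ => q1_nonneg _)) (prod_nonneg fun _ _ => q2_nonneg _)

theorem sum_sw : ∑ r : Seed n, sw r = 1 := by
  have h := sum_seed (n := n) fun _ => 1
  simp only [mul_one, Ex_const q2_sum, Ex_const q1_sum, Ex_const q0_sum] at h
  rw [h]; norm_num

theorem sum_mod_three (s : Finset ℕ) (f : ℕ → ℝ) :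
    ∑ a : Fin 3, ∑ k ∈ s.filter (fun k => k % 3 = a.val), f k = ∑ k ∈ s, f k := by
  simp only [sum_filter]
  rw [sum_comm]
  refine sum_congr rfl fun k _ => ?_
  rw [Fin.sum_univ_three]
  have h : k % 3 = 0 ∨ k % 3 = 1 ∨ k % 3 = 2 := by omega
  rcases h with h | h | h <;> simp [h]

/-- The expected number of accepted elements of one class. -/
theorem class_bound (hD : DetStmt) (hC : CoreStmt) (ρ : Rk n) (c : Fin n → K)
    (ord : Seed n → Equiv.Perm (Fin n)) (i : K) :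
    (1 / 2 ^ 35 : ℝ) * ρ.r (univ.filter fun s => i ≤ c s) - 3 * ρ.r (univ.filter fun s => i < c s) ≤
      ∑ r : Seed n, sw r * (((accS ρ c r (List.ofFn (ord r))).filter fun s => c s = i).card : ℝ) := by
  set u' : ℝ := (ρ.r (univ.filter fun s => i < c s) : ℝ) with hu'
  set φ : Seed n → ℝ := fun r => ∑ k ∈ (range (n + 1)).filter (fun k => k % 3 = r.1.val),
    (gain ρ (Imp ρ c r.2.1) c r.2.2.1 r.2.2.2 i k : ℝ) with hφ
  have h1 : ∀ r : Seed n, φ r - 2 * u' ≤
      (((accS ρ c r (List.ofFn (ord r))).filter fun s => c s = i).card : ℝ) := by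
    intro r
    have h := (hD n ρ c r (List.ofFn (ord r))).2
      (fun e => List.mem_ofFn.2 ⟨(ord r).symm e, by simp⟩) i
    have h' : φ r ≤ (((accS ρ c r (List.ofFn (ord r))).filter fun s => c s = i).card : ℝ) +
        2 * u' := by
      simp only [hφ, hu']; exact_mod_cast h
    linarith
  have h2 : ∑ r : Seed n, sw r * φ r = (1 / 3) * Ex q0 fun σ0 => Ex q1 fun σ1 => Ex q2 fun ℓ =>
      ∑ k ∈ range (n + 1), (gain ρ (Imp ρ c σ0) c σ1 ℓ i k : ℝ) := by
    rw [sum_seed, ← mul_sum]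
    congr 1
    rw [← Ex_sum]
    refine Ex_congr fun σ0 => ?_
    rw [← Ex_sum]
    refine Ex_congr fun σ1 => ?_
    rw [← Ex_sum]
    refine Ex_congr fun ℓ => ?_
    exact sum_mod_three _ _
  have h3 := hC n ρ c i
  calc _ ≤ ∑ r : Seed n, sw r * φ r - 2 * u' := by rw [h2]; linarith
    _ = ∑ r : Seed n, sw r * (φ r - 2 * u') := by
        simp only [mul_sub, sum_sub_distrib, ← sum_mul, sum_sw, one_mul]
    _ ≤ _ := sum_le_sum fun r _ => mul_le_mul_of_nonneg_left (h1 r) (sw_nonneg r)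

theorem exists_range (c : Fin n → K) :
    ∃ (lo : ℤ) (M : ℕ), ∀ e, c e = ⊥ ∨ ∃ m < M, c e = ((lo + (m : ℕ) : ℤ) : K) := by
  obtain ⟨N, hN⟩ := (Set.finite_range fun e => ((c e).unbotD 0).natAbs).bddAbove
  refine ⟨-N, 2 * N + 1, fun e => ?_⟩
  have h : ((c e).unbotD 0).natAbs ≤ N := hN ⟨e, rfl⟩
  induction hc : c e using WithBot.recBotCoe with
  | bot => exact Or.inl rfl
  | coe j =>
    rw [hc, WithBot.unbotD_coe] at h
    refine Or.inr ⟨(j + N).toNat, by omega, ?_⟩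
    congr 1
    omega

theorem sum_val {c : Fin n → K} {lo : ℤ} {M : ℕ}
    (h : ∀ e, c e = ⊥ ∨ ∃ m < M, c e = ((lo + (m : ℕ) : ℤ) : K)) (A : Finset (Fin n)) :
    ∑ e ∈ A, val (c e) = ∑ m ∈ range M, ((2 : ℝ) ^ 37) ^ (lo + (m : ℕ)) *
      ((A.filter fun s => c s = ((lo + (m : ℕ) : ℤ) : K)).card : ℝ) := by
  simp only [card_filter, Nat.cast_sum, mul_sum]
  rw [sum_comm]
  refine sum_congr rfl fun e _ => ?_
  rcases h e with h0 | ⟨m, hm, h0⟩
  · rw [h0]; simp [val]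
  · rw [sum_eq_single_of_mem m (mem_range.2 hm), h0]
    · rw [if_pos rfl, Nat.cast_one, mul_one]; rfl
    · intro m' _ hm'
      rw [if_neg]
      · simp
      · rw [h0, WithBot.coe_eq_coe]; omega

theorem shift_le {b : ℝ} (hb : 0 < b) (lo : ℤ) (M : ℕ) (u : ℕ → ℝ) (hu : 0 ≤ u 0)
    (hM : u M = 0) : b * ∑ m ∈ range M, b ^ (lo + (m : ℕ)) * u (m + 1) ≤
      ∑ m ∈ range M, b ^ (lo + (m : ℕ)) * u m := by
  have h1 := sum_range_succ' (fun m : ℕ => b ^ (lo + (m : ℕ)) * u m) M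
  rw [sum_range_succ, hM, mul_zero, add_zero] at h1
  rw [h1, mul_sum]
  have h2 : 0 ≤ b ^ (lo + ((0 : ℕ) : ℤ)) * u 0 := by positivity
  refine le_trans (le_of_eq (sum_congr rfl fun m _ => ?_)) (le_add_of_nonneg_right h2)
  rw [Nat.cast_succ, ← add_assoc, zpow_add_one₀ hb.ne']
  ring

theorem value (hD : DetStmt) (hC : CoreStmt) : ValueStmt := by
  intro n ρ c ord I hI
  obtain ⟨lo, M, h⟩ := exists_range c
  set b : ℝ := (2 : ℝ) ^ 37 with hb
  have hb0 : 0 < b := by positivity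
  set u : ℕ → ℝ := fun m => ρ.r (univ.filter fun s => ((lo + (m : ℕ) : ℤ) : K) ≤ c s) with hu
  have hu' : ∀ m : ℕ, (ρ.r (univ.filter fun s => ((lo + (m : ℕ) : ℤ) : K) < c s) : ℝ) =
      u (m + 1) := by
    intro m
    simp only [hu]
    congr 2
    refine filter_congr fun s _ => ?_
    induction c s using WithBot.recBotCoe with
    | bot => simp
    | coe j => rw [WithBot.coe_lt_coe, WithBot.coe_le_coe]; omega
  have hM : u M = 0 := by
    simp only [hu]
    rw [filter_false_of_mem, ρ.empty, Nat.cast_zero]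
    intro s _
    rcases h s with h0 | ⟨m, hm, h0⟩
    · rw [h0]; simp
    · rw [h0, WithBot.coe_le_coe]; omega
  have hI' : ∀ m : ℕ, ((I.filter fun s => c s = ((lo + (m : ℕ) : ℤ) : K)).card : ℝ) ≤ u m := by
    intro m
    have h1 := ρ.rel_eq_card_of_subset (D := ∅) (by rw [ρ.rel_empty_right]; exact hI)
      (filter_subset (fun s => c s = ((lo + (m : ℕ) : ℤ) : K)) I)
    rw [ρ.rel_empty_right] at h1
    simp only [hu]
    rw [← h1]
    refine Nat.cast_le.2 (ρ.mono fun s hs => ?_)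
    exact mem_filter.2 ⟨mem_univ _, (mem_filter.1 hs).2.ge⟩
  have h1 := shift_le hb0 lo M u (by simp only [hu]; positivity) hM
  have h2 : ∑ e ∈ I, val (c e) ≤ ∑ m ∈ range M, b ^ (lo + (m : ℕ)) * u m := by
    rw [sum_val h]
    exact sum_le_sum fun m _ => mul_le_mul_of_nonneg_left (hI' m) (by positivity)
  have h3 : ∑ m ∈ range M, b ^ (lo + (m : ℕ)) * ((1 / 2 ^ 35 : ℝ) * u m - 3 * u (m + 1)) ≤
      ∑ r : Seed n, sw r * ∑ e ∈ accS ρ c r (List.ofFn (ord r)), val (c e) := by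
    simp only [sum_val h, mul_sum]
    rw [sum_comm]
    refine sum_le_sum fun m _ => ?_
    have h4 := class_bound hD hC ρ c ord ((lo + (m : ℕ) : ℤ) : K)
    rw [hu'] at h4
    refine (mul_le_mul_of_nonneg_left h4 (by positivity)).trans (le_of_eq ?_)
    rw [mul_sum]
    exact sum_congr rfl fun r _ => by ring
  refine le_trans ?_ h3
  have h5 : ∑ m ∈ range M, b ^ (lo + (m : ℕ)) * ((1 / 2 ^ 35 : ℝ) * u m - 3 * u (m + 1)) =
      (1 / 2 ^ 35 : ℝ) * ∑ m ∈ range M, b ^ (lo + (m : ℕ)) * u m -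
        3 * ∑ m ∈ range M, b ^ (lo + (m : ℕ)) * u (m + 1) := by
    rw [mul_sum, mul_sum, ← sum_sub_distrib]
    exact sum_congr rfl fun m _ => by ring
  rw [h5]
  generalize ∑ m ∈ range M, b ^ (lo + (m : ℕ)) * u (m + 1) = y at h1 ⊢
  generalize ∑ m ∈ range M, b ^ (lo + (m : ℕ)) * u m = x at h1 h2 ⊢
  rw [hb] at h1
  norm_num at h1 ⊢
  linarith

end Crest.Agent.R305
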